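import Vale.Agent.P217.Theta.Basic
import Vale.Agent.P217.Formal.Log
import Mathlib.Analysis.SpecificLimits.Normed

/-!
# P217, module Chi: evaluation of series with logarithmic growth over `ℂ_[p]`
-/

noncomputable section

set_option linter.unusedSectionVars false

namespace Vale.Agent.P217.Chi

open Filter Topology

variable {p : ℕ} [hp : Fact p.Prime]

lemma norm_pC : ‖(p : ℂ_[p])‖ = (p : ℝ)⁻¹ := by
  rw [← map_natCast (algebraMap ℚ_[p] ℂ_[p]) p]
  exact (PadicComplex.norm_extends' p _).trans Padic.norm_p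

lemma pC_ne : (p : ℂ_[p]) ≠ 0 := Nat.cast_ne_zero.2 hp.out.ne_zero

lemma ev1_eq_tsum (z : ℂ_[p]) (f : PowerSeries ℂ_[p]) :
    ev1 z f = ∑' m, PowerSeries.coeff m f * z ^ m := by
  have hinj : Function.Injective fun m : ℕ => (Finsupp.single () m : Unit →₀ ℕ) :=
    Finsupp.single_injective ()
  rw [ev1, ev, ← hinj.tsum_eq (f := fun d => MvPowerSeries.coeff d f * mon (fun _ => z) d)]
  · refine tsum_congr fun m => ?_
    congr 1
    exact Finsupp.prod_single_index (h_zero := by simp)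
  · intro d _
    exact ⟨d (), by ext; simp⟩

/-- Coefficients of logarithmic growth. -/
def LogGrowth (G : PowerSeries ℂ_[p]) : Prop := ∀ m, ‖PowerSeries.coeff m G‖ ≤ (m : ℝ)

lemma LogGrowth.const {G : PowerSeries ℂ_[p]} (h : LogGrowth G) :
    PowerSeries.coeff 0 G = 0 := norm_le_zero_iff.1 (by simpa using h 0)

lemma exists_scale {G : PowerSeries ℂ_[p]} (h : LogGrowth G) {b : ℂ_[p]} (hb : ‖b‖ < 1) :
    ∃ e : ℕ, IntSer ((PowerSeries.C ((p : ℂ_[p]) ^ e) * PowerSeries.rescale b G :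
      PowerSeries ℂ_[p]) : MvPowerSeries Unit ℂ_[p]) := by
  have ht := tendsto_self_mul_const_pow_of_lt_one (norm_nonneg b) hb
  obtain ⟨B, hB⟩ := ht.bddAbove_range
  obtain ⟨e, he⟩ := pow_unbounded_of_one_lt B (show (1 : ℝ) < p by exact_mod_cast hp.out.one_lt)
  refine ⟨e, fun d => ?_⟩
  obtain ⟨m, rfl⟩ : ∃ m, d = Finsupp.single () m := ⟨d (), by ext; simp⟩
  show ‖PowerSeries.coeff m (PowerSeries.C ((p : ℂ_[p]) ^ e) * PowerSeries.rescale b G)‖ ≤ 1
  rw [PowerSeries.coeff_C_mul, PowerSeries.coeff_rescale, norm_mul, norm_mul, norm_pow, norm_pow,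
    norm_pC, inv_pow, inv_mul_le_iff₀ (pow_pos (by exact_mod_cast hp.out.pos) _), mul_one]
  calc ‖b‖ ^ m * ‖PowerSeries.coeff m G‖ ≤ ‖b‖ ^ m * m := by gcongr; exact h m
    _ = (m : ℝ) * ‖b‖ ^ m := mul_comm _ _
    _ ≤ B := hB ⟨m, rfl⟩
    _ ≤ _ := he.le

lemma ev1_C_mul (c z : ℂ_[p]) (f : PowerSeries ℂ_[p]) :
    ev1 z (PowerSeries.C c * f) = c * ev1 z f := by
  rw [ev1_eq_tsum, ev1_eq_tsum, ← tsum_mul_left]
  exact tsum_congr fun m => by rw [PowerSeries.coeff_C_mul, mul_assoc]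

lemma ev1_rescale (b z : ℂ_[p]) (f : PowerSeries ℂ_[p]) :
    ev1 z (PowerSeries.rescale b f) = ev1 (b * z) f := by
  rw [ev1_eq_tsum, ev1_eq_tsum]
  exact tsum_congr fun m => by rw [PowerSeries.coeff_rescale, mul_pow]; ring

lemma exists_between_norm {r : ℝ} (hr : r < 1) : ∃ b : ℂ_[p], r < ‖b‖ ∧ ‖b‖ < 1 := by
  have hp1 : (1 : ℝ) < p := by exact_mod_cast hp.out.one_lt
  have hq0 : (0 : ℝ) < (p : ℝ)⁻¹ := by positivity
  obtain ⟨N, hN⟩ : ∃ N : ℕ, (max r 0) ^ (N + 1) < (p : ℝ)⁻¹ := by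
    have h := (tendsto_pow_atTop_nhds_zero_of_lt_one (le_max_right r 0)
      (max_lt hr one_pos)).comp (tendsto_add_atTop_nat 1)
    exact (h.eventually_lt_const hq0).exists
  obtain ⟨b, hb⟩ := IsAlgClosed.exists_pow_nat_eq (p : ℂ_[p]) (n := N + 1) (by omega)
  have hn : ‖b‖ ^ (N + 1) = (p : ℝ)⁻¹ := by rw [← norm_pow, hb, norm_pC]
  refine ⟨b, (le_max_left r 0).trans_lt ?_, ?_⟩
  · exact lt_of_pow_lt_pow_left₀ _ (norm_nonneg _) (hn ▸ hN)
  · refine (pow_lt_one_iff_of_nonneg (norm_nonneg _) (by omega : N + 1 ≠ 0)).1 ?_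
    rw [hn]
    exact inv_lt_one_of_one_lt₀ hp1

lemma LogGrowth.summable {G : PowerSeries ℂ_[p]} (h : LogGrowth G) (hE : EvalTarget) {z : ℂ_[p]}
    (hz : ‖z‖ < 1) : Summable fun m => PowerSeries.coeff m G * z ^ m := by
  obtain ⟨b, hb1, hb2⟩ := exists_between_norm (p := p) hz
  have hb0 : b ≠ 0 := norm_pos_iff.1 ((norm_nonneg z).trans_lt hb1)
  obtain ⟨e, he⟩ := exists_scale h hb2
  have hw : ‖z / b‖ < 1 := by rwa [norm_div, div_lt_one (norm_pos_iff.2 hb0)]
  have hs := (Theta.hasSum_ev hE (Theta.small_unit hw) he).summable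
  have hs' := (hs.comp_injective (Finsupp.single_injective ())).mul_left (((p : ℂ_[p]) ^ e)⁻¹)
  refine hs'.congr fun m => ?_
  show _ * (PowerSeries.coeff m (PowerSeries.C ((p : ℂ_[p]) ^ e) * PowerSeries.rescale b G) *
    mon (fun _ : Unit => z / b) (Finsupp.single () m)) = _
  rw [PowerSeries.coeff_C_mul, PowerSeries.coeff_rescale, mon,
    Finsupp.prod_single_index (h_zero := by simp), div_pow]
  field_simp [pC_ne (p := p)]

lemma rescale_subst {G χ : PowerSeries ℂ_[p]} {b : ℂ_[p]} (hb : b ≠ 0)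
    (hχ : PowerSeries.constantCoeff χ = 0) :
    PowerSeries.subst (PowerSeries.C b⁻¹ * PowerSeries.rescale b χ) (PowerSeries.rescale b G) =
      PowerSeries.rescale b (G.subst χ) := by
  have hX : PowerSeries.constantCoeff (b • PowerSeries.X : PowerSeries ℂ_[p]) = 0 := by simp
  have hsX := PowerSeries.HasSubst.of_constantCoeff_zero' hX
  have hr : PowerSeries.constantCoeff (PowerSeries.rescale b χ) = 0 := by
    rw [← PowerSeries.coeff_zero_eq_constantCoeff_apply, PowerSeries.coeff_rescale,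
      PowerSeries.coeff_zero_eq_constantCoeff_apply, hχ, mul_zero]
  have hc : PowerSeries.constantCoeff (PowerSeries.C b⁻¹ * PowerSeries.rescale b χ) = 0 := by
    rw [map_mul, hr, mul_zero]
  have hsc := PowerSeries.HasSubst.of_constantCoeff_zero' hc
  rw [PowerSeries.rescale_eq_subst b G, PowerSeries.subst_comp_subst_apply hsX hsc,
    PowerSeries.subst_smul hsc, PowerSeries.subst_X hsc, PowerSeries.smul_eq_C_mul, ← mul_assoc,
    ← map_mul, mul_inv_cancel₀ hb, map_one, one_mul, PowerSeries.rescale_eq_subst b χ,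
    PowerSeries.rescale_eq_subst b (G.subst χ),
    PowerSeries.subst_comp_subst_apply (PowerSeries.HasSubst.of_constantCoeff_zero' hχ) hsX]

/-- Evaluation commutes with substitution for series of logarithmic growth. -/
theorem ev1_subst_growth (hE : EvalTarget) {G χ : PowerSeries ℂ_[p]} (hG : LogGrowth G)
    (hχ : IntSer (χ : MvPowerSeries Unit ℂ_[p])) (hχ0 : PowerSeries.constantCoeff χ = 0)
    {a : ℂ_[p]} (ha : ‖a‖ < 1) : ev1 a (G.subst χ) = ev1 (ev1 a χ) G := by
  obtain ⟨b, hb1, hb2⟩ := exists_between_norm (p := p) ha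
  have hbpos : 0 < ‖b‖ := (norm_nonneg a).trans_lt hb1
  have hb0 : b ≠ 0 := norm_pos_iff.1 hbpos
  obtain ⟨e, he⟩ := exists_scale hG hb2
  have hw : ‖a / b‖ < 1 := by rwa [norm_div, div_lt_one hbpos]
  have hc0 : PowerSeries.constantCoeff (PowerSeries.C b⁻¹ * PowerSeries.rescale b χ) = 0 := by
    rw [map_mul, ← PowerSeries.coeff_zero_eq_constantCoeff_apply (PowerSeries.rescale b χ),
      PowerSeries.coeff_rescale, PowerSeries.coeff_zero_eq_constantCoeff_apply, hχ0, mul_zero,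
      mul_zero]
  have hχb : IntSer ((PowerSeries.C b⁻¹ * PowerSeries.rescale b χ : PowerSeries ℂ_[p]) :
      MvPowerSeries Unit ℂ_[p]) := fun d => by
    obtain ⟨m, rfl⟩ : ∃ m, d = Finsupp.single () m := ⟨d (), by ext; simp⟩
    show ‖PowerSeries.coeff m (PowerSeries.C b⁻¹ * PowerSeries.rescale b χ)‖ ≤ 1
    rcases m with _ | m
    · rw [PowerSeries.coeff_zero_eq_constantCoeff_apply, hc0]
      simp
    · rw [PowerSeries.coeff_C_mul, PowerSeries.coeff_rescale, ← mul_assoc, pow_succ', ← mul_assoc,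
        inv_mul_cancel₀ hb0, one_mul, norm_mul, norm_pow]
      exact mul_le_one₀ (pow_le_one₀ (norm_nonneg _) hb2.le) (norm_nonneg _)
        (hχ (Finsupp.single () (m + 1)))
  have h := Theta.ev1_subst hE (y := fun _ : Unit => a / b) hχb hc0 he (Theta.small_unit hw)
  change ev1 (a / b) (PowerSeries.subst (PowerSeries.C b⁻¹ * PowerSeries.rescale b χ)
    (PowerSeries.C ((p : ℂ_[p]) ^ e) * PowerSeries.rescale b G)) =
    ev1 (ev1 (a / b) (PowerSeries.C b⁻¹ * PowerSeries.rescale b χ))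
    (PowerSeries.C ((p : ℂ_[p]) ^ e) * PowerSeries.rescale b G) at h
  rw [← PowerSeries.smul_eq_C_mul _ ((p : ℂ_[p]) ^ e),
    PowerSeries.subst_smul (PowerSeries.HasSubst.of_constantCoeff_zero' hc0),
    rescale_subst hb0 hχ0, PowerSeries.smul_eq_C_mul, PowerSeries.smul_eq_C_mul, ev1_C_mul,
    ev1_C_mul, ev1_rescale, ev1_rescale, mul_div_cancel₀ _ hb0, ev1_C_mul, ev1_rescale,
    mul_div_cancel₀ _ hb0, ← mul_assoc, mul_inv_cancel₀ hb0, one_mul] at h
  exact mul_left_cancel₀ (pow_ne_zero _ pC_ne) h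

lemma ev1_expand (z : ℂ_[p]) {q : ℕ} (hq : q ≠ 0) (f : PowerSeries ℂ_[p]) :
    ev1 z (MvPowerSeries.expand q hq (f : MvPowerSeries Unit ℂ_[p]) : PowerSeries ℂ_[p]) =
      ev1 (z ^ q) f := by
  rw [ev1, ev1, ev, ev]
  have hinj : Function.Injective fun d : Unit →₀ ℕ => q • d := fun a b h => by
    refine Finsupp.ext fun i => ?_
    have := congrArg (fun x => x i) h
    simp only [Finsupp.smul_apply, smul_eq_mul] at this
    exact Nat.eq_of_mul_eq_mul_left (Nat.pos_of_ne_zero hq) this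
  rw [← hinj.tsum_eq]
  · refine tsum_congr fun d => ?_
    rw [MvPowerSeries.coeff_expand_smul]
    congr 1
    rw [mon, mon, Finsupp.prod_fintype _ _ (fun _ => pow_zero _),
      Finsupp.prod_fintype _ _ (fun _ => pow_zero _)]
    simp [pow_mul]
  · intro d hd
    by_cases h : q ∣ d ()
    · obtain ⟨k, hk⟩ := h
      exact ⟨Finsupp.single () k, by ext; simp [hk]⟩
    · rw [Function.mem_support] at hd
      exact absurd (by rw [MvPowerSeries.coeff_expand_of_not_dvd _ _ _ h, zero_mul]) hd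

lemma norm_L_le {v : ℕ → ℂ_[p]} (hv : ∀ i, ‖v i‖ ≤ 1) : ∀ K, ‖L p v K‖ ≤ 1 := by
  intro K
  induction K using Nat.strong_induction_on with
  | _ K ih =>
    rcases K with _ | K
    · rw [L_zero, norm_one]
    · rw [L_succ]
      refine IsUltrametricDist.norm_sum_le_of_forall_le_of_nonneg zero_le_one fun i hi => ?_
      rw [norm_mul, norm_mul, norm_pow, norm_pow]
      exact mul_le_one₀ (mul_le_one₀ (pow_le_one₀ (norm_nonneg _) (hv _)) (by positivity)
        (pow_le_one₀ (norm_nonneg _) (IsUltrametricDist.norm_natCast_le_one _ p)))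
        (norm_nonneg _) (ih _ (by omega))

lemma coeff_pLogC_pow (v : ℕ → ℂ_[p]) (K : ℕ) :
    PowerSeries.coeff (p ^ K) (pLog p v) = L p v K / (p : ℂ_[p]) ^ K := by
  rw [coeff_pLog_pow, Ring.inverse_eq_inv', inv_pow, div_eq_mul_inv]

lemma logGrowth_pLog {v : ℕ → ℂ_[p]} (hv : ∀ i, ‖v i‖ ≤ 1) : LogGrowth (pLog p v) := by
  intro m
  by_cases h : ∃ K, m = p ^ K
  · obtain ⟨K, rfl⟩ := h
    rw [coeff_pLogC_pow, norm_div, norm_pow, norm_pC, inv_pow, div_inv_eq_mul, Nat.cast_pow]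
    exact mul_le_of_le_one_left (by positivity) (norm_L_le hv K)
  · rw [coeff_pLog_other v fun K hK => h ⟨K, hK⟩, norm_zero]
    exact Nat.cast_nonneg m

lemma logVal_eq_ev1 (v : ℕ → ℂ_[p]) (z : ℂ_[p]) : logVal p v z = ev1 z (pLog p v) := by
  rw [ev1_eq_tsum, logVal]
  have hinj : Function.Injective fun K : ℕ => p ^ K := Nat.pow_right_injective hp.out.two_le
  rw [← hinj.tsum_eq (f := fun m => PowerSeries.coeff m (pLog p v) * z ^ m)]
  · exact tsum_congr fun K => by rw [coeff_pLogC_pow]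
  · intro m hm
    by_contra h
    refine hm ?_
    show PowerSeries.coeff m (pLog p v) * z ^ m = 0
    rw [coeff_pLog_other v fun K hK => h ⟨K, hK.symm⟩, zero_mul]

end Vale.Agent.P217.Chi

end
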