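import Vale.Agent.P217.Chi.Series
import Vale.Agent.P217.Chi.Eval
import Vale.Agent.P217.Eval.Basic
import Vale.Agent.P217.Theta.Congr
import Vale.Agent.P217.HomPoints

/-!
# P217, module Chi: congruences modulo `1/p` between `C` and `ℂ_[p]`
-/

noncomputable section

set_option linter.unusedSectionVars false

namespace Vale.Agent.P217.Chi

open Filter Topology Datum

variable {p : ℕ} [hp : Fact p.Prime] {C : Type} [NormedField C] [IsUltrametricDist C]
  [CompleteSpace C] [CharP C p] [PerfectRing C p] (S : Sharp p C)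

lemma one_div_p : (1 : ℝ) / p = (p : ℝ)⁻¹ := one_div _

lemma one_div_p_lt_one : (1 : ℝ) / p < 1 := by
  rw [one_div]
  exact inv_lt_one_of_one_lt₀ (by exact_mod_cast hp.out.one_lt)

lemma nearAdd : Theta.NearAdd S.ρ ((1 : ℝ) / p) :=
  ⟨by positivity, one_div_p_lt_one, S.norm_eq, S.add_le⟩

lemma norm_theta_sub (w : WB p C) : ‖S.θ w - S.ρ (redC w)‖ ≤ 1 / p := by
  have h : (p : WB p C) ∣ w - WittVector.teichmuller p (w.coeff 0) := by
    rw [← Ideal.mem_span_singleton, WittVector.mem_span_p_iff_coeff_zero_eq_zero]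
    show WittVector.constantCoeff (w - WittVector.teichmuller p (w.coeff 0)) = 0
    rw [map_sub, sub_eq_zero]
    exact (WittVector.teichmuller_coeff_zero p _).symm
  obtain ⟨y, hy⟩ := h
  have h2 := congrArg S.θ hy
  rw [map_sub, map_mul, map_natCast, S.θ_teich] at h2
  show ‖S.θ w - S.ρ (w.coeff 0 : C)‖ ≤ _
  rw [h2, norm_mul, norm_pC, one_div]
  exact mul_le_of_le_one_right (by positivity) (S.θ_le y)

lemma theta_tT (v : ℕ → unitBall C) (i : ℕ) : S.θ (tT v i) = S.ρ (v i : C) := S.θ_teich _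

lemma intSer_map_theta {σ : Type} (Φ : MvPowerSeries σ (WB p C)) :
    IntSer (MvPowerSeries.map S.θ Φ) := fun d => by
  rw [MvPowerSeries.coeff_map]; exact S.θ_le _

lemma intSer_map_red {σ : Type} (Φ : MvPowerSeries σ (WB p C)) :
    IntSer (MvPowerSeries.map (redC : WB p C →+* C) Φ) := fun d => by
  rw [MvPowerSeries.coeff_map]
  exact (WittVector.constantCoeff (MvPowerSeries.coeff d Φ)).2

/-- Evaluation of a series over `W(O)` at congruent points. -/
lemma map_ev1_congr (hE : EvalTarget) (Φ : PowerSeries (WB p C)) {x : C} {y : ℂ_[p]}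
    (hx : ‖x‖ < 1) (hy : ‖y‖ < 1) (hxy : ‖y - S.ρ x‖ ≤ 1 / p) :
    ‖ev1 y (PowerSeries.map S.θ Φ) - S.ρ (ev1 x (PowerSeries.map redC Φ))‖ ≤ 1 / p :=
  (nearAdd S).map_ev hE (Theta.small_unit hx) (Theta.small_unit hy) (fun _ => hxy)
    (intSer_map_red Φ) (intSer_map_theta S Φ) fun d => by
      show ‖MvPowerSeries.coeff d (MvPowerSeries.map S.θ Φ) -
        S.ρ (MvPowerSeries.coeff d (MvPowerSeries.map redC Φ))‖ ≤ _
      rw [MvPowerSeries.coeff_map, MvPowerSeries.coeff_map]
      exact norm_theta_sub S _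

variable {n : ℕ}

/-- A common radius. -/
lemma exists_radius' {u : Fin (n - 1) → C} (hu : Small u) :
    ∃ c : ℝ, c < 1 ∧ 1 / p ≤ c ∧ ∀ i, ‖u i‖ ≤ c := by
  obtain ⟨r, hr0, hr1, hr⟩ := Eval.exists_radius hu
  exact ⟨max r (1 / p), max_lt hr1 one_div_p_lt_one, le_max_right _ _,
    fun i => (hr i).trans (le_max_left _ _)⟩

lemma thetaC_spec (hTh : ThetaTarget) (hn : 1 ≤ n) {u : Fin (n - 1) → C} (hu : Small u) {η : C}
    (hη : ‖η‖ < 1) :
    Tendsto (fun M => pmul (law p (vTuple n u)) (p ^ M) (root p η (n * M))) atTop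
        (𝓝 (thetaC p n u η)) ∧ ‖thetaC p n u η‖ < 1 := by
  obtain ⟨c, hc1, hcp, hc⟩ := exists_radius' (p := p) hu
  have hc0 : 0 ≤ c := le_trans (by positivity) hcp
  obtain ⟨h1, -, -⟩ := hTh p C C (MonoidWithZeroHom.id C) c hc1 (fun _ => rfl)
    (by simpa [CharP.cast_eq_zero C p] using hc0) (fun a b _ _ => by simpa using hc0) n hn u hc
  exact ⟨(h1 η hη).1, (h1 η hη).2.1⟩

lemma thetaD_spec (hTh : ThetaTarget) (hn : 1 ≤ n) {u : Fin (n - 1) → C} (hu : Small u) {η : C}
    (hη : ‖η‖ < 1) :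
    Tendsto (fun M => pmul (law p (vTuple n fun i => S.ρ (u i))) (p ^ M)
        (S.ρ (root p η (n * M)))) atTop
        (𝓝 (theta p n S.ρ (vTuple n fun i => S.ρ (u i)) η)) ∧
      ‖theta p n S.ρ (vTuple n fun i => S.ρ (u i)) η‖ < 1 := by
  obtain ⟨c, hc1, hcp, hc⟩ := exists_radius' (p := p) hu
  obtain ⟨h1, -, -⟩ := hTh p C ℂ_[p] S.ρ c hc1 S.norm_eq
    (by rw [norm_pC, ← one_div]; exact hcp) (fun a b ha hb => (S.add_le a b ha hb).trans hcp)
    n hn (fun i => S.ρ (u i)) (fun i => (S.norm_eq _).trans_le (hc i))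
  exact ⟨(h1 η hη).1, (h1 η hη).2.1⟩

/-- The tuple of Teichmüller lifts. -/
lemma theta_wTuple (uO : Fin (n - 1) → unitBall C) (i : ℕ) :
    S.θ (tT (vTuple n uO) i) = vTuple n (fun j => S.ρ (uO j : C)) i := by
  rw [theta_tT, vTuple, vTuple]
  split_ifs <;> simp

lemma red_wTuple (uO : Fin (n - 1) → unitBall C) (i : ℕ) :
    redC (tT (p := p) (vTuple n uO) i) = vTuple n (fun j => (uO j : C)) i := by
  show ((tT (p := p) (vTuple n uO) i).coeff 0 : C) = _
  rw [tT, WittVector.teichmuller_coeff_zero, vTuple, vTuple]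
  split_ifs <;> rfl

/-- `theta` commutes with the sharp map modulo `1/p`. -/
lemma theta_congr (hE : EvalTarget) (hTh : ThetaTarget) (hn : 1 ≤ n) {u : Fin (n - 1) → C}
    (hu : Small u) {η : C} (hη : ‖η‖ < 1) :
    ‖theta p n S.ρ (vTuple n fun i => S.ρ (u i)) η - S.ρ (thetaC p n u η)‖ ≤ 1 / p := by
  obtain ⟨tC, hC⟩ := thetaC_spec hTh hn hu hη
  obtain ⟨tD, -⟩ := thetaD_spec S hTh hn hu hη
  set uO : Fin (n - 1) → unitBall C := fun i => ⟨u i, (hu i).le⟩
  have key : ∀ M, ‖pmul (law p (vTuple n fun i => S.ρ (u i))) (p ^ M) (S.ρ (root p η (n * M))) -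
      S.ρ (pmul (law p (vTuple n u)) (p ^ M) (root p η (n * M)))‖ ≤ 1 / p := by
    intro M
    have hr := Theta.norm_root_lt (p := p) hη (n * M)
    have h := map_ev1_congr S hE (mulSer (law p (tT (vTuple n uO))) (p ^ M)) hr
      ((S.norm_eq _).trans_lt hr) (by rw [sub_self, norm_zero]; positivity)
    rw [Theta.map_mulSer, Theta.map_mulSer, law_map, law_map] at h
    simp only [theta_wTuple, red_wTuple] at h
    exact h
  have hev : ∀ᶠ M in atTop, ‖pmul (law p (vTuple n fun i => S.ρ (u i))) (p ^ M)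
      (S.ρ (root p η (n * M))) - S.ρ (thetaC p n u η)‖ ≤ 1 / p := by
    have h0 := (tendsto_iff_norm_sub_tendsto_zero.1 tC).eventually_le_const
      (show (0 : ℝ) < 1 / p by have := hp.out.pos; positivity)
    filter_upwards [h0] with M hM
    have hM1 : ‖pmul (law p (vTuple n u)) (p ^ M) (root p η (n * M))‖ ≤ 1 := by
      rw [show pmul (law p (vTuple n u)) (p ^ M) (root p η (n * M)) =
        (pmul (law p (vTuple n u)) (p ^ M) (root p η (n * M)) - thetaC p n u η) +
          thetaC p n u η by abel]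
      exact (IsUltrametricDist.norm_add_le_max _ _).trans
        (max_le (hM.trans one_div_p_lt_one.le) hC.le)
    exact Theta.norm_sub_trans (key M)
      (((nearAdd S).close hM1 hC.le hM).trans (max_le le_rfl le_rfl))
  exact le_of_tendsto (tD.sub_const _).norm hev

/-- Iterated Frobenius commutes with `thetaC`. -/
lemma thetaC_frob (hE : EvalTarget) (hTh : ThetaTarget) (hn : 1 ≤ n) {u : Fin (n - 1) → C}
    (hu : Small u) {η : C} (hη : ‖η‖ < 1) (e : ℕ) :
    thetaC p n (fun i => u i ^ p ^ e) (η ^ p ^ e) = thetaC p n u η ^ p ^ e := by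
  have hpe : p ^ e ≠ 0 := pow_ne_zero _ hp.out.ne_zero
  have hu' : Small fun i => u i ^ p ^ e := fun i => by
    rw [norm_pow]; exact pow_lt_one₀ (norm_nonneg _) (hu i) hpe
  have hη' : ‖η ^ p ^ e‖ < 1 := by
    rw [norm_pow]; exact pow_lt_one₀ (norm_nonneg _) hη hpe
  refine tendsto_nhds_unique (thetaC_spec hTh hn hu' hη').1 ?_
  refine ((thetaC_spec hTh hn hu hη).1.pow (p ^ e)).congr fun M => ?_
  have hF : IntSer (law p (vTuple n u)).toPowerSeries :=
    Theta.intSer_law p (norm_vTuple_le fun i => (hu i).le)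
  have hroot : root p (η ^ p ^ e) (n * M) = root p η (n * M) ^ p ^ e := by
    rw [Theta.root_eq_iff, pow_right_comm, Theta.root_pow]
  have hr := Theta.norm_root_lt (p := p) hη (n * M)
  have h1 := (Theta.hasSum_ev hE (Theta.small_unit hr)
    (Theta.intSer_mulSer hE hF (p ^ M))).map (iterateFrobenius C p e) (continuous_pow _)
  have hr' := Theta.norm_root_lt (p := p) hη' (n * M)
  have hF' : IntSer (law p (vTuple n fun i => u i ^ p ^ e)).toPowerSeries :=
    Theta.intSer_law p (norm_vTuple_le fun i => (hu' i).le)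
  have h2 := Theta.hasSum_ev hE (Theta.small_unit hr') (Theta.intSer_mulSer hE hF' (p ^ M))
  have hmap : PowerSeries.map (iterateFrobenius C p e) (mulSer (law p (vTuple n u)) (p ^ M)) =
      mulSer (law p (vTuple n fun i => u i ^ p ^ e)) (p ^ M) := by
    rw [Theta.map_mulSer, law_map]
    congr 2
    funext i
    rw [vTuple, vTuple]
    split_ifs <;> simp [iterateFrobenius_def, zero_pow hpe]
  refine (h2.unique ?_).symm
  refine h1.congr_fun fun d => ?_
  simp only [Function.comp_apply]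
  rw [map_mul, ← MvPowerSeries.coeff_map]
  change MvPowerSeries.coeff d _ * _ = MvPowerSeries.coeff d
    (PowerSeries.map (iterateFrobenius C p e) (mulSer (law p (vTuple n u)) (p ^ M))) * _
  rw [hmap, hroot]
  congr 1
  rw [iterateFrobenius_def, mon, mon, Finsupp.prod_fintype _ _ (fun _ => pow_zero _),
    Finsupp.prod_fintype _ _ (fun _ => pow_zero _)]
  simp [← pow_mul, mul_comm]

lemma L_honda {A : Type*} [CommRing A] {h : ℕ} (h1 : 1 ≤ h) :
    ∀ K, L p (vHonda h : ℕ → A) K = if h ∣ K then (p : A) ^ (K - K / h) else 0 := by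
  intro K
  induction K using Nat.strong_induction_on with
  | _ K ih =>
    rcases K with _ | K
    · simp [L_zero]
    · rw [L_succ]
      rcases lt_or_ge (K + 1) h with hlt | hge
      · rw [if_neg (fun hd => by have := Nat.le_of_dvd (Nat.succ_pos K) hd; omega)]
        refine Finset.sum_eq_zero fun i hi => ?_
        rw [Finset.mem_range] at hi
        rw [vHonda, if_neg (by omega), zero_pow (pow_ne_zero _ hp.out.ne_zero), zero_mul, zero_mul]
      · rw [Finset.sum_eq_single (h - 1)]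
        · rw [show h - 1 + 1 = h by omega, vHonda, if_pos rfl, one_pow, one_mul,
            ih _ (by omega)]
          have e2 : K + 1 = K - (h - 1) + h := by omega
          by_cases hd : h ∣ K - (h - 1)
          · have hd' : h ∣ K + 1 := by rw [e2]; exact hd.add dvd_rfl
            rw [if_pos hd, if_pos hd', ← pow_add]
            congr 1
            obtain ⟨c, hc⟩ := hd
            have hK : K + 1 = h * (c + 1) := by rw [mul_add, mul_one, ← hc]; omega
            rw [hc, hK, Nat.mul_div_cancel_left _ (by omega), Nat.mul_div_cancel_left _ (by omega)]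
            have hle : c ≤ h * c := Nat.le_mul_of_pos_left c (by omega)
            rw [mul_add, mul_one]
            omega
          · have hd' : ¬ h ∣ K + 1 := by rw [e2, Nat.dvd_add_self_right]; exact hd
            rw [if_neg hd, if_neg hd', mul_zero]
        · intro i _ hi
          rw [vHonda, if_neg (by omega), zero_pow (pow_ne_zero _ hp.out.ne_zero), zero_mul,
            zero_mul]
        · intro hh
          exact absurd (Finset.mem_range.2 (by omega)) hh

lemma zroot_natCast (ξ : C) (m : ℕ) : zroot p ξ (m : ℤ) = ξ ^ p ^ m := rfl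

lemma norm_zroot_lt {ξ : C} (hξ : ‖ξ‖ < 1) : ∀ m : ℤ, ‖zroot p ξ m‖ < 1
  | Int.ofNat m => by
    show ‖ξ ^ p ^ m‖ < 1
    rw [norm_pow]
    exact pow_lt_one₀ (norm_nonneg _) hξ (pow_ne_zero _ hp.out.ne_zero)
  | Int.negSucc m => Theta.norm_root_lt hξ (m + 1)

/-- The zeroth period modulo `1/p`. -/
lemma per_zero_congr (hP : PeriodTarget) {h : ℕ} (h1 : 1 ≤ h) {ξ : C} (hξ : ‖ξ‖ < 1) :
    ‖per p h S ξ 0 - logVal p (vHonda h) (S.ρ ξ)‖ ≤ 1 / p := by
  set f : ℤ → ℂ_[p] := fun k => S.ρ (zroot p ξ ((0 : ℤ) + h * k)) * (p : ℂ_[p]) ^ (-k) with hf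
  have hs : Summable f := ((hP p C S h h1).1 ξ 0 hξ).1
  have hs1 : Summable fun k : ℕ => f k := hs.comp_injective Nat.cast_injective
  have hs2 : Summable fun k : ℕ => f (-(↑(k + 1) : ℤ)) :=
    hs.comp_injective fun a b hab => by
      have := neg_injective hab
      omega
  have hs2' : Summable fun k : ℕ => f (-(↑k + 1 : ℤ)) := by simpa using hs2
  have hsum : per p h S ξ 0 = (∑' k : ℕ, f k) + ∑' k : ℕ, f (-(↑k + 1 : ℤ)) :=
    tsum_of_nat_of_neg_add_one hs1 hs2'
  have hlog : logVal p (vHonda h) (S.ρ ξ) = ∑' k : ℕ, f k := by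
    rw [logVal]
    have hinj : Function.Injective fun k : ℕ => h * k :=
      fun a b hab => Nat.eq_of_mul_eq_mul_left (by omega) hab
    rw [← hinj.tsum_eq]
    · refine tsum_congr fun k => ?_
      rw [hf, L_honda h1, if_pos (dvd_mul_right _ _), Nat.mul_div_cancel_left _ (by omega)]
      simp only [zero_add]
      rw [← Nat.cast_mul, zroot_natCast, map_pow, zpow_neg, zpow_natCast, mul_comm]
      have hk : k ≤ h * k := Nat.le_mul_of_pos_left k (by omega)
      have e : (p : ℂ_[p]) ^ (h * k) = (p : ℂ_[p]) ^ (h * k - k) * (p : ℂ_[p]) ^ k := by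
        rw [← pow_add, Nat.sub_add_cancel hk]
      congr 1
      rw [e, div_eq_iff (mul_ne_zero (pow_ne_zero _ pC_ne) (pow_ne_zero _ pC_ne))]
      have := pow_ne_zero k (pC_ne (p := p))
      field_simp
    · intro K hK
      by_contra hh
      refine hK ?_
      show L p (vHonda h) K / _ * _ = (0 : ℂ_[p])
      rw [L_honda h1, if_neg (fun hd => hh ⟨K / h, Nat.mul_div_cancel' hd⟩), zero_div, zero_mul]
  rw [hsum, hlog, add_sub_cancel_left]
  refine IsUltrametricDist.norm_tsum_le_of_forall_le_of_nonneg (by positivity) fun k => ?_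
  rw [hf]
  dsimp only
  rw [neg_neg, norm_mul, S.norm_eq, norm_zpow, norm_pC, one_div]
  calc ‖zroot p ξ (0 + h * -(↑k + 1 : ℤ))‖ * ((p : ℝ)⁻¹) ^ (↑k + 1 : ℤ)
      ≤ 1 * ((p : ℝ)⁻¹) ^ (↑k + 1 : ℤ) := by
        gcongr
        exact (norm_zroot_lt hξ _).le
    _ = ((p : ℝ)⁻¹) ^ (k + 1) := by rw [one_mul, ← zpow_natCast]; push_cast; ring_nf
    _ ≤ (p : ℝ)⁻¹ := pow_le_of_le_one (by positivity)
        (inv_le_one_of_one_le₀ (by exact_mod_cast hp.out.one_le)) (by omega)

end Vale.Agent.P217.Chi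

end
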