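import Vale.Agent.P217.Chi.Witt
import Vale.Agent.P217.HazewinkelLog
import Vale.Agent.P217.Formal.Law
import Vale.Agent.P217.HeightIdeal
import Mathlib.RingTheory.Localization.Away.Basic

/-!
# P217, module Chi: the series `h` and the homomorphism to the height `h` Honda law modulo `p`
-/

noncomputable section

set_option linter.unusedSectionVars false

namespace Vale.Agent.P217.Chi

open MvPowerSeries Finset

variable {p : ℕ} [hp : Fact p.Prime] {C : Type} [NormedField C] [IsUltrametricDist C] [CharP C p]
  [PerfectRing C p]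

/-- The localisation `W(O)[1/p]`. -/
abbrev KB (p : ℕ) [Fact p.Prime] (C : Type) [NormedField C] [IsUltrametricDist C] [CharP C p]
    [PerfectRing C p] : Type :=
  Localization.Away (p : WB p C)

/-- The inclusion of `W(O)`. -/
abbrev iW : WB p C →+* KB p C := algebraMap _ _

lemma isUnit_pK : IsUnit (p : KB p C) := by
  have h := IsLocalization.Away.algebraMap_isUnit (S := KB p C) (p : WB p C)
  rwa [map_natCast] at h

lemma p_mem_nonZeroDivisors : (p : WB p C) ∈ nonZeroDivisors (WB p C) :=
  mem_nonZeroDivisors_of_ne_zero (WittVector.p_nonzero p (unitBall C))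

lemma iW_inj : Function.Injective (iW : WB p C →+* KB p C) :=
  IsLocalization.injective (KB p C) (M := Submonoid.powers (p : WB p C))
    (Submonoid.powers_le.mpr p_mem_nonZeroDivisors)

lemma isUnit_comp_frW : IsUnit (((iW : WB p C →+* KB p C).comp frW) (p : WB p C)) := by
  rw [map_natCast]
  exact isUnit_pK

/-- The Frobenius of `W(O)[1/p]`. -/
def frK : KB p C →+* KB p C :=
  IsLocalization.Away.lift (p : WB p C) (isUnit_comp_frW (p := p) (C := C))

lemma frK_iW (a : WB p C) : frK (iW a) = iW (frW a) :=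
  IsLocalization.Away.lift_eq (p : WB p C) isUnit_comp_frW a

/-- `1 / p`. -/
def cK : KB p C := ((isUnit_pK (p := p) (C := C)).unit⁻¹ : (KB p C)ˣ)

lemma p_mul_cK : (p : KB p C) * cK = 1 := IsUnit.mul_val_inv _

lemma frK_cK : frK (cK : KB p C) = cK := by
  refine (isUnit_pK (p := p) (C := C)).mul_left_cancel ?_
  rw [p_mul_cK, ← map_natCast (frK : KB p C →+* KB p C), ← map_mul, p_mul_cK, map_one]

/-- The functional equation with parameters `w`. -/
def mkFE (m : ℕ) (w : ℕ → WB p C) : FE (WB p C) (KB p C) p m where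
  ι := iW
  φ := frW
  σ := frK
  s i := cK * iW (w (i.val + 1))
  comm := frK_iW
  frob := frW_frob
  denom i := ⟨w (i.val + 1), by rw [← mul_assoc, p_mul_cK, one_mul]⟩

/-- Parameters of functional equation type. -/
structure Tuple (m : ℕ) (w : ℕ → WB p C) : Prop where
  fr : ∀ i, frW (w i) = w i ^ p
  supp : ∀ i, m < i → w i = 0

variable {m : ℕ} {w : ℕ → WB p C}

/-- The logarithm of parameters `w`. -/
def logK (w : ℕ → WB p C) : PowerSeries (KB p C) := pLog p fun i => iW (w i)

lemma logK_eq (w : ℕ → WB p C) : logK w = hazLog cK (fun i => iW (w i)) p :=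
  pLog_eq_hazLog p_mul_cK _

lemma Tuple.isLog (hw : Tuple m w) : (mkFE m w).IsLog (logK w) := by
  rw [logK_eq]
  exact isLog_hazLog (mkFE m w) cK _ frK_cK (fun i => by
    show frK (iW (w i)) = _
    rw [frK_iW, hw.fr, map_pow]) (fun _ => rfl) fun i hi => by rw [hw.supp i hi, map_zero]

lemma Tuple.typeOf (hw : Tuple m w) :
    (mkFE m w).typeOf (logK w : MvPowerSeries Unit (KB p C)) =
      (MvPowerSeries.X () : MvPowerSeries Unit (KB p C)) := by
  rw [logK_eq]
  exact typeOf_hazLog (mkFE m w) cK _ frK_cK (fun i => by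
    show frK (iW (w i)) = _
    rw [frK_iW, hw.fr, map_pow]) (fun _ => rfl) fun i hi => by rw [hw.supp i hi, map_zero]

/-- The parameters raised to the power `p ^ e`. -/
def powTuple (w : ℕ → WB p C) (e : ℕ) (i : ℕ) : WB p C := w i ^ p ^ e

lemma itH_frW_tuple (hw : Tuple m w) (e i : ℕ) : itH frW e (w i) = powTuple w e i := by
  induction e with
  | zero => simp [itH, powTuple]
  | succ e ih =>
    rw [itH, RingHom.comp_apply, ih, powTuple, map_pow, hw.fr, powTuple, ← pow_mul, ← pow_succ']

lemma Tuple.pow (hw : Tuple m w) (e : ℕ) : Tuple m (powTuple w e) :=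
  ⟨fun i => by rw [powTuple, map_pow, hw.fr, ← pow_mul, ← pow_mul, mul_comm],
   fun i hi => by rw [powTuple, hw.supp i hi, zero_pow (pow_ne_zero _ hp.out.ne_zero)]⟩

lemma itH_frK_iW (e : ℕ) (a : WB p C) : itH frK e (iW a) = iW (itH frW e a) := by
  induction e with
  | zero => rfl
  | succ e ih => simp [itH, ih, frK_iW]

lemma map_logK (hw : Tuple m w) (e : ℕ) :
    PowerSeries.map (itH frK e) (logK w) = logK (powTuple w e) := by
  rw [logK, map_pLog _ isUnit_pK, logK]
  congr 1
  funext i
  rw [itH_frK_iW, itH_frW_tuple hw]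

lemma itH_itH {R : Type*} [CommRing R] (φ : R →+* R) (a b : ℕ) (x : R) :
    itH φ a (itH φ b x) = itH φ (a + b) x := by
  induction a with
  | zero => simp [itH]
  | succ a ih => rw [Nat.add_right_comm, itH, RingHom.comp_apply, ih]; rfl

/-- `σ^e f (z ^ (p ^ e))`. -/
def twist (f : MvPowerSeries Unit (KB p C)) (e : ℕ) : MvPowerSeries Unit (KB p C) :=
  expand (p ^ e) (pow_ne_zero _ hp.out.ne_zero) (map (itH frK e) f)

lemma twist_smul (c : KB p C) (f : MvPowerSeries Unit (KB p C)) (e : ℕ) :
    twist (c • f) e = itH frK e c • twist f e := by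
  rw [twist, twist, smul_eq_C_mul, smul_eq_C_mul, map_mul, map_C, map_mul, expand_C]

lemma expand_congr {σ R : Type*} [CommRing R] {q q' : ℕ} (h : q = q') {hq : q ≠ 0} {hq' : q' ≠ 0} :
    (expand q hq : MvPowerSeries σ R →ₐ[R] MvPowerSeries σ R) = expand q' hq' := by
  subst h; rfl

lemma twist_twist (f : MvPowerSeries Unit (KB p C)) (a b : ℕ) :
    twist (twist f b) a = twist f (a + b) := by
  have hm : map (itH frK a) (map (itH frK b) f) = map (itH frK (a + b)) f := by
    refine MvPowerSeries.ext fun d => ?_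
    rw [coeff_map, coeff_map, coeff_map, itH_itH]
  rw [twist, twist, map_expand, hm, ← expand_mul, twist]
  exact DFunLike.congr_fun (expand_congr (pow_add p a b).symm) _

/-- `fs w e` is `σ^e f (z ^ (p ^ e))` for the logarithm `f` of `w`. -/
def fs (w : ℕ → WB p C) (e : ℕ) : MvPowerSeries Unit (KB p C) := twist (logK w) e

lemma fs_eq (hw : Tuple m w) (e : ℕ) :
    fs w e = MvPowerSeries.X () ^ p ^ e +
      ∑ i : Fin m, (cK * iW (powTuple w e (i.val + 1))) • fs w (e + i.val + 1) := by
  have h : twist (logK w : MvPowerSeries Unit (KB p C)) 0 - ∑ i : Fin m,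
      (cK * iW (w (i.val + 1))) • twist (logK w) (i.val + 1) =
      (MvPowerSeries.X () : MvPowerSeries Unit (KB p C)) := by
    rw [← hw.typeOf, FE.typeOf]
    congr 1
    rw [twist]
    ext d
    simp [itH]
  have h2 := congrArg (fun f => twist f e) h
  simp only [twist, map_sub, map_sum, expand_X, map_X] at h2
  change twist (twist (logK w) 0) e - ∑ i : Fin m,
    twist ((cK * iW (w (i.val + 1))) • twist (logK w) (i.val + 1)) e = _ at h2
  rw [twist_twist, add_zero, sub_eq_iff_eq_add] at h2
  rw [fs, h2]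
  refine congrArg₂ (· + ·) rfl (Finset.sum_congr rfl fun i _ => ?_)
  rw [twist_smul, twist_twist, map_mul, ← add_assoc, fs, itH_frK_iW, itH_frW_tuple hw]
  congr 2
  exact itH_fix _ frK_cK e

/-- Data of a fixed point. -/
structure Datum (p : ℕ) [Fact p.Prime] (C : Type) [NormedField C] [IsUltrametricDist C]
    [CharP C p] [PerfectRing C p] (n h : ℕ) where
  v : ℕ → unitBall C
  π : ℕ → WB p C
  h1 : 1 ≤ h
  hn : h < n
  supp : ∀ i, n < i → v i = 0
  low : ∀ i, 1 ≤ i → i < h → v i = 0
  πsupp : ∀ s, n ≤ s → π s = 0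
  ne : (π 0).coeff 0 ≠ 0
  eqn : ∀ s, itH frW h (π s) =
    (∑ e ∈ range h, if e ≤ s then π e * tT v (s + h - e) ^ p ^ e else 0) +
      (p : WB p C) * π (s + h)

variable {n h : ℕ} (D : Datum p C n h)

namespace Datum

lemma tuple : Tuple n (tT (p := p) D.v) :=
  ⟨frW_tT D.v, fun i hi => tT_eq_zero (D.supp i hi)⟩

lemma tT_low {i : ℕ} (h1 : 1 ≤ i) (h2 : i < h) : tT (p := p) D.v i = 0 :=
  tT_eq_zero (D.low i h1 h2)

/-- The series `h`. -/
def hser : MvPowerSeries Unit (KB p C) := ∑ s ∈ range n, iW (D.π s) • fs (tT D.v) s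

lemma sum_range_of_le {N : ℕ} (hN : n ≤ N) :
    ∑ s ∈ range N, iW (D.π s) • fs (tT D.v) s = D.hser := by
  refine (Finset.sum_subset (range_mono hN) fun s _ hs => ?_).symm
  rw [Finset.mem_range, not_lt] at hs
  rw [D.πsupp s hs, map_zero, zero_smul]

lemma sum_shift {M : Type*} [AddCommGroup M] (G : ℕ → WB p C → M) (hG : ∀ j, G j 0 = 0) {e : ℕ}
    (he : e < h) :
    (∑ s ∈ range (2 * n), if e ≤ s then G (s + h) (tT D.v (s + h - e) ^ p ^ e) else 0) =
      ∑ i : Fin n, G (e + i.val + 1) (tT D.v (i.val + 1) ^ p ^ e) := by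
  have hn := D.hn
  have hpe : p ^ e ≠ 0 := pow_ne_zero _ hp.out.ne_zero
  have h0 : ∀ j i, tT (p := p) D.v i = 0 → G j (tT (p := p) D.v i ^ p ^ e) = 0 := fun j i hi => by
    rw [hi, zero_pow hpe, hG]
  have hL : (∑ s ∈ range (2 * n), if e ≤ s then G (s + h) (tT D.v (s + h - e) ^ p ^ e) else 0) =
      ∑ j ∈ Finset.Icc h n, G (e + j) (tT D.v j ^ p ^ e) := by
    rw [← Finset.sum_filter]
    calc _ = ∑ s ∈ Finset.Icc e (n + e - h), G (s + h) (tT D.v (s + h - e) ^ p ^ e) := by
          refine (Finset.sum_subset (fun s hs => ?_) fun s hs hs' => ?_).symm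
          · rw [Finset.mem_Icc] at hs
            simp only [mem_filter, Finset.mem_range]
            omega
          · simp only [mem_filter, Finset.mem_range] at hs
            rw [Finset.mem_Icc] at hs'
            exact h0 _ _ (D.tuple.supp _ (by omega))
      _ = _ := by
          refine Finset.sum_nbij' (fun s => s + h - e) (fun j => j + e - h) ?_ ?_ ?_ ?_ ?_
          · intro s hs; simp at hs ⊢; omega
          · intro j hj; simp at hj ⊢; omega
          · intro s hs; simp at hs ⊢; omega
          · intro j hj; simp at hj ⊢; omega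
          · intro s hs
            rw [Finset.mem_Icc] at hs
            congr 1
            omega
  rw [hL, Fin.sum_univ_eq_sum_range (fun i => G (e + i + 1) (tT D.v (i + 1) ^ p ^ e))]
  calc _ = ∑ j ∈ Finset.Icc 1 n, G (e + j) (tT D.v j ^ p ^ e) := by
        refine Finset.sum_subset (Finset.Icc_subset_Icc D.h1 le_rfl) fun j hj hj' => ?_
        rw [Finset.mem_Icc] at hj hj'
        exact h0 _ _ (D.tT_low hj.1 (by omega))
    _ = _ := by
        refine Finset.sum_nbij' (fun j => j - 1) (fun i => i + 1) ?_ ?_ ?_ ?_ ?_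
        · intro s hs; simp at hs ⊢; omega
        · intro j hj; simp at hj ⊢; omega
        · intro s hs; simp at hs ⊢; omega
        · intro j hj; omega
        · intro s hs
          rw [Finset.mem_Icc] at hs
          rw [show s - 1 + 1 = s by omega, show e + (s - 1) + 1 = e + s by omega]

lemma frob_hser :
    (cK : KB p C) • twist D.hser h = D.hser - ∑ e ∈ range h, iW (D.π e) • MvPowerSeries.X () ^ p ^ e := by
  have hn := D.hn
  have e1 : twist D.hser h = ∑ s ∈ range (2 * n), iW (itH frW h (D.π s)) • fs (tT D.v) (s + h) := by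
    rw [← D.sum_range_of_le (N := 2 * n) (by omega), twist, map_sum, map_sum]
    refine Finset.sum_congr rfl fun s _ => ?_
    change twist (iW (D.π s) • fs (tT D.v) s) h = _
    rw [twist_smul, fs, twist_twist, itH_frK_iW, add_comm h s]
    rfl
  have e2 : ∀ s, (cK : KB p C) • (iW (itH frW h (D.π s)) • fs (tT D.v) (s + h)) =
      (∑ e ∈ range h, if e ≤ s then
          ((cK : KB p C) * iW (D.π e) * iW (tT D.v (s + h - e) ^ p ^ e)) • fs (tT D.v) (s + h) else 0) +
        iW (D.π (s + h)) • fs (tT D.v) (s + h) := by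
    intro s
    rw [smul_smul, D.eqn s, map_add, map_mul, map_natCast, map_sum, mul_add, ← mul_assoc,
      mul_comm (cK : KB p C) (p : KB p C), p_mul_cK, one_mul, add_smul, mul_sum, Finset.sum_smul]
    congr 1
    refine Finset.sum_congr rfl fun e _ => ?_
    split_ifs
    · rw [map_mul, mul_assoc]
    · rw [map_zero, mul_zero, zero_smul]
  rw [e1, Finset.smul_sum, Finset.sum_congr rfl fun s _ => e2 s, Finset.sum_add_distrib]
  have e3 : ∑ s ∈ range (2 * n), iW (D.π (s + h)) • fs (tT D.v) (s + h) =
      D.hser - ∑ e ∈ range h, iW (D.π e) • fs (tT D.v) e := by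
    rw [← D.sum_range_of_le (N := h + 2 * n) (by omega), Finset.sum_range_add, add_sub_cancel_left]
    exact Finset.sum_congr rfl fun s _ => by rw [add_comm h s]
  have e4 : ∀ e ∈ range h, (∑ s ∈ range (2 * n), if e ≤ s then
      ((cK : KB p C) * iW (D.π e) * iW (tT D.v (s + h - e) ^ p ^ e)) • fs (tT D.v) (s + h) else 0) =
      iW (D.π e) • fs (tT D.v) e - iW (D.π e) • MvPowerSeries.X () ^ p ^ e := by
    intro e he
    rw [D.sum_shift (fun j x => ((cK : KB p C) * iW (D.π e) * iW x) • fs (tT D.v) j) (fun j => by simp)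
      (Finset.mem_range.1 he), ← smul_sub]
    conv_rhs => rw [fs_eq D.tuple e, add_sub_cancel_left, Finset.smul_sum]
    refine Finset.sum_congr rfl fun i _ => ?_
    rw [smul_smul, powTuple]
    congr 1
    ring
  rw [Finset.sum_comm, Finset.sum_congr rfl e4, e3, Finset.sum_sub_distrib]
  abel

lemma hondaTuple : Tuple h (fun i => (vHonda h i : WB p C)) :=
  ⟨fun i => by
    unfold vHonda
    split_ifs <;> simp [zero_pow hp.out.ne_zero],
   fun i hi => by unfold vHonda; rw [if_neg (by omega)]⟩

lemma constantCoeff_hser : constantCoeff D.hser = 0 := by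
  rw [hser, map_sum]
  refine Finset.sum_eq_zero fun s _ => ?_
  rw [constantCoeff_smul, fs, twist, ← coeff_zero_eq_constantCoeff_apply,
    ← smul_zero (p ^ s : ℕ), coeff_expand_smul, coeff_map, coeff_zero_eq_constantCoeff_apply]
  have h0 : constantCoeff (logK (tT (p := p) D.v) : MvPowerSeries Unit (KB p C)) = 0 :=
    constantCoeff_pLog _
  rw [h0, map_zero, smul_zero]

lemma typeOf_hser :
    (mkFE h (fun i => (vHonda h i : WB p C))).typeOf D.hser =
      ∑ e ∈ range h, iW (D.π e) • MvPowerSeries.X () ^ p ^ e := by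
  have h1 := D.h1
  rw [FE.typeOf, Finset.sum_eq_single (⟨h - 1, by omega⟩ : Fin h)]
  · show D.hser - (cK * iW (vHonda h (h - 1 + 1) : WB p C)) • twist D.hser (h - 1 + 1) = _
    rw [show h - 1 + 1 = h by omega, show (vHonda h h : WB p C) = 1 from if_pos rfl, map_one,
      mul_one, D.frob_hser, sub_sub_cancel]
  · intro i _ hi
    show (cK * iW (vHonda h (i.val + 1) : WB p C)) • _ = _
    rw [vHonda, if_neg (fun e => hi (Fin.ext (by show i.val = h - 1; omega))), map_zero, mul_zero,
      zero_smul]
  · intro hh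
    exact absurd (Finset.mem_univ _) hh

lemma exists_chiW : ∃ χ : PowerSeries (WB p C), PowerSeries.constantCoeff χ = 0 ∧
    (logK fun i => (vHonda h i : WB p C)).subst (PowerSeries.map iW χ) = D.hser := by
  refine (mkFE h _).exists_eq_subst (τ := Unit) (hondaTuple (h := h)).isLog
    D.constantCoeff_hser fun d => ?_
  rw [D.typeOf_hser, map_sum]
  refine sum_mem fun e _ => ?_
  rw [coeff_smul, coeff_X_pow]
  split_ifs
  · exact ⟨D.π e, by simp [mkFE]⟩
  · exact ⟨0, by simp [mkFE]⟩

/-- The integral series `χ` with `g ∘ χ = h`. -/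
def chiW : PowerSeries (WB p C) := D.exists_chiW.choose

lemma constantCoeff_chiW : PowerSeries.constantCoeff D.chiW = 0 := D.exists_chiW.choose_spec.1

lemma subst_chiW :
    (logK fun i => (vHonda h i : WB p C)).subst (PowerSeries.map iW D.chiW) = D.hser :=
  D.exists_chiW.choose_spec.2

lemma coeff_one_chiW : PowerSeries.coeff 1 D.chiW = D.π 0 := by
  apply iW_inj
  have hc : constantCoeff (map iW D.chiW : MvPowerSeries Unit (KB p C)) = 0 := by
    rw [constantCoeff_map]
    exact (congrArg iW D.constantCoeff_chiW).trans (map_zero _)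
  have h1 : coeff (Finsupp.single () 1)
      ((logK fun i => (vHonda h i : WB p C)).subst (PowerSeries.map iW D.chiW)) =
      iW (PowerSeries.coeff 1 D.chiW) := by
    rw [PowerSeries.map, coeff_subst_sum _ hc (D := 1) (by simp), Finset.sum_range_succ,
      Finset.sum_range_one, PowerSeries.coeff_zero_eq_constantCoeff_apply]
    rw [logK, constantCoeff_pLog, zero_mul, zero_add, coeff_one_pLog, one_mul, pow_one, coeff_map]
    rfl
  rw [← h1, D.subst_chiW]
  have h2 := D.h1
  have hint : coeff (Finsupp.single () 1) ((cK : KB p C) • twist D.hser h) = 0 := by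
    rw [coeff_smul, twist, coeff_expand_of_not_dvd _ _ _ (i := ()) (by
      rw [Finsupp.single_eq_same, Nat.dvd_one]
      exact (Nat.one_lt_pow (by omega) hp.out.one_lt).ne'), mul_zero]
  rw [D.frob_hser, map_sub, sub_eq_zero, map_sum] at hint
  rw [hint, Finset.sum_eq_single_of_mem 0 (Finset.mem_range.2 (by omega))]
  · rw [coeff_smul, coeff_X_pow, if_pos (by simp), mul_one]
  · intro e _ he
    rw [coeff_smul, coeff_X_pow, if_neg, mul_zero]
    intro hh
    have := congrArg (fun d => d ()) hh
    simp only [Finsupp.single_eq_same] at this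
    exact (Nat.one_lt_pow he hp.out.one_lt).ne this

/-- The law over `W(O)`. -/
def lawW : FormalGroup (WB p C) := law p (tT D.v)

lemma hasLog_map (w : ℕ → WB p C) :
    (logK w).subst (map (iW : WB p C →+* KB p C) (law p w).toPowerSeries) =
      (logK w).subst (X (0 : Fin 2)) + (logK w).subst (X (1 : Fin 2)) := by
  have h := hasLog_law p (fun i => (iW (w i) : KB p C)) isUnit_pK
  rw [HasLog, ← law_map p (iW : WB p C →+* KB p C) w, FormalGroup.map_toPowerSeries] at h
  exact h

lemma expand_eq_subst {τ : Type} {R : Type} [CommRing R] (q : ℕ) (hq : q ≠ 0)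
    (f : MvPowerSeries Unit R) {a : MvPowerSeries τ R} (ha : constantCoeff a = 0) :
    PowerSeries.subst a (expand q hq f) = PowerSeries.subst (a ^ q) f := by
  unfold PowerSeries.subst
  rw [expand, substAlgHom_apply, subst_comp_subst_apply (HasSubst.X_pow hq)
    (PowerSeries.HasSubst.of_constantCoeff_zero ha).const]
  congr 1
  funext i
  rw [subst_pow (PowerSeries.HasSubst.of_constantCoeff_zero ha).const,
    subst_X (PowerSeries.HasSubst.of_constantCoeff_zero ha).const]

lemma twist_subst {τ : Type} (f : PowerSeries (KB p C)) (e : ℕ) {a : MvPowerSeries τ (KB p C)}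
    (ha : constantCoeff a = 0) :
    PowerSeries.subst a (twist f e) =
      (PowerSeries.map (itH frK e) f).subst (a ^ p ^ e) :=
  expand_eq_subst _ _ _ ha

lemma subst_expand {τ : Type} {R : Type} [CommRing R] (q : ℕ) (hq : q ≠ 0) (f : PowerSeries R)
    {a : MvPowerSeries τ R} (ha : constantCoeff a = 0) :
    f.subst (expand q hq a) = expand q hq (f.subst a) := by
  unfold PowerSeries.subst
  rw [expand_subst q hq (PowerSeries.HasSubst.of_constantCoeff_zero ha).const]

lemma hser_additive (d : Fin 2 →₀ ℕ) :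
    ∃ c : WB p C,
      coeff d (PowerSeries.subst (map iW D.lawW.toPowerSeries) D.hser) -
        coeff d (PowerSeries.subst (X (0 : Fin 2) : MvPowerSeries (Fin 2) (KB p C)) D.hser +
          PowerSeries.subst (X (1 : Fin 2) : MvPowerSeries (Fin 2) (KB p C)) D.hser) =
      (p : KB p C) * iW c := by
  set F : MvPowerSeries (Fin 2) (WB p C) := D.lawW.toPowerSeries
  have hF0 : constantCoeff F = 0 := D.lawW.zero_constantCoeff
  have hF0' : constantCoeff (map (iW : WB p C →+* KB p C) F) = 0 := by
    rw [constantCoeff_map, hF0, map_zero]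
  have key : ∀ s, ∃ c : WB p C,
      coeff d (PowerSeries.subst (map iW F) (fs (tT D.v) s)) -
        coeff d (PowerSeries.subst (X (0 : Fin 2) : MvPowerSeries (Fin 2) (KB p C)) (fs (tT D.v) s) +
          PowerSeries.subst (X (1 : Fin 2) : MvPowerSeries (Fin 2) (KB p C)) (fs (tT D.v) s)) =
      (p : KB p C) * iW c := by
    intro s
    have hpq : p ^ s ≠ 0 := pow_ne_zero _ hp.out.ne_zero
    set α : MvPowerSeries (Fin 2) (WB p C) := F ^ p ^ s
    set β : MvPowerSeries (Fin 2) (WB p C) := expand (p ^ s) hpq (map (itH frW s) F)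
    have hα : constantCoeff α = 0 := by rw [map_pow, hF0, zero_pow hpq]
    have hβm : constantCoeff (map (itH frW s) F) = 0 := by rw [constantCoeff_map, hF0, map_zero]
    have hβ : constantCoeff β = 0 := by
      rw [← coeff_zero_eq_constantCoeff_apply, ← smul_zero (p ^ s : ℕ), coeff_expand_smul,
        coeff_zero_eq_constantCoeff_apply, hβm]
    obtain ⟨c, hc⟩ := (mkFE n (powTuple (tT D.v) s)).subst_congr (D.tuple.pow s).isLog (r := 0)
      hα hβ (fun e => by
        rw [zero_add, pow_one, ← map_sub]
        exact dvd_coeff_of_natCast_dvd (pow_congr_expand frW_frob s F) e) d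
    refine ⟨c, ?_⟩
    rw [zero_add, pow_one] at hc
    refine Eq.trans ?_ hc
    have hFs : map (itH frW s) F = (law p (powTuple (tT D.v) s)).toPowerSeries := by
      show map _ (law p (tT D.v)).toPowerSeries = _
      rw [← FormalGroup.map_toPowerSeries, law_map]
      congr 2
      funext i
      rw [itH_frW_tuple D.tuple]
    have hα' : PowerSeries.subst (map iW F) (fs (tT D.v) s) =
        (logK (powTuple (tT D.v) s)).subst (map iW α) := by
      rw [fs, twist_subst _ _ hF0', map_logK D.tuple, map_pow]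
    have hxi : ∀ i : Fin 2, PowerSeries.subst (X i : MvPowerSeries (Fin 2) (KB p C))
        (fs (tT D.v) s) = expand (p ^ s) hpq ((logK (powTuple (tT D.v) s)).subst
          (X i : MvPowerSeries (Fin 2) (KB p C))) := fun i => by
      rw [fs, twist_subst _ _ (constantCoeff_X i), map_logK D.tuple,
        ← subst_expand _ _ _ (constantCoeff_X i), expand_X]
    have hβ' : expand (p ^ s) hpq ((logK (powTuple (tT D.v) s)).subst (map iW (map (itH frW s) F))) =
        (logK (powTuple (tT D.v) s)).subst (map iW β) := by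
      rw [map_expand, subst_expand]
      rw [constantCoeff_map, hβm, map_zero]
    show _ = coeff d ((logK (powTuple (tT D.v) s)).subst (map iW α)) -
      coeff d ((logK (powTuple (tT D.v) s)).subst (map iW β))
    rw [hα', hxi, hxi, ← map_add, ← hβ', hFs, hasLog_map, map_add]
  choose c hc using key
  refine ⟨∑ s ∈ range n, D.π s * c s, ?_⟩
  have hlin : ∀ {a : MvPowerSeries (Fin 2) (KB p C)}, constantCoeff a = 0 →
      PowerSeries.subst a D.hser =
        ∑ s ∈ range n, iW (D.π s) • PowerSeries.subst a (fs (tT D.v) s) := by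
    intro a ha
    rw [hser, ← PowerSeries.coe_substAlgHom (PowerSeries.HasSubst.of_constantCoeff_zero ha)]
    exact (map_sum _ _ _).trans (Finset.sum_congr rfl fun s _ => map_smul _ _ _)
  rw [hlin hF0', hlin (constantCoeff_X _), hlin (constantCoeff_X _), map_add, map_sum, map_sum,
    map_sum, map_sum, Finset.mul_sum, ← Finset.sum_add_distrib, ← Finset.sum_sub_distrib]
  refine Finset.sum_congr rfl fun s _ => ?_
  have h3 := hc s
  rw [map_add] at h3
  simp only [coeff_smul, ← mul_add, ← mul_sub, h3, map_mul]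
  ring

lemma hom_congr (d : Fin 2 →₀ ℕ) :
    (p : WB p C) ∣ coeff d (D.chiW.subst D.lawW.toPowerSeries) -
      coeff d ((honda p h (WB p C)).toPowerSeries.subst
        ![D.chiW.subst (X (0 : Fin 2)), D.chiW.subst (X (1 : Fin 2))]) := by
  set G : MvPowerSeries (Fin 2) (WB p C) := (honda p h (WB p C)).toPowerSeries
  have hc : ∀ j : Fin 2, constantCoeff
      (![D.chiW.subst (X (0 : Fin 2) : MvPowerSeries (Fin 2) (WB p C)),
        D.chiW.subst (X (1 : Fin 2))] j) = 0 := fun j => by
    fin_cases j <;> exact constantCoeff_subst_zero _ D.constantCoeff_chiW (constantCoeff_X _)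
  have hα := constantCoeff_subst_zero (R := WB p C) _ D.constantCoeff_chiW D.lawW.zero_constantCoeff
  have hβ : constantCoeff (G.subst ![D.chiW.subst (X (0 : Fin 2) : MvPowerSeries (Fin 2) (WB p C)),
      D.chiW.subst (X (1 : Fin 2))]) = 0 :=
    constantCoeff_subst_eq_zero (hasSubst_of_constantCoeff_zero hc) hc
      (honda p h (WB p C)).zero_constantCoeff
  have hχ0 : PowerSeries.constantCoeff (PowerSeries.map (iW : WB p C →+* KB p C) D.chiW) = 0 := by
    rw [← PowerSeries.coeff_zero_eq_constantCoeff_apply, PowerSeries.coeff_map,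
      PowerSeries.coeff_zero_eq_constantCoeff_apply, D.constantCoeff_chiW, map_zero]
  have hE := (hondaTuple (p := p) (C := C) (h := h)).isLog
  have key : ∀ z : MvPowerSeries (Fin 2) (WB p C), constantCoeff z = 0 →
      (logK fun i => (vHonda h i : WB p C)).subst (map iW (D.chiW.subst z)) =
        PowerSeries.subst (map iW z) D.hser := by
    intro z hz
    rw [PowerSeries.map_subst (PowerSeries.HasSubst.of_constantCoeff_zero hz),
      ← PowerSeries.subst_comp_subst_apply (PowerSeries.HasSubst.of_constantCoeff_zero' hχ0)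
        (PowerSeries.HasSubst.of_constantCoeff_zero (by rw [constantCoeff_map, hz, map_zero])),
      D.subst_chiW]
  have h := (mkFE h _).congr_of_subst iW_inj hE (r := 0) hα hβ (fun e => by
    obtain ⟨c, hc'⟩ := D.hser_additive e
    refine ⟨c, ?_⟩
    have hadd : (logK fun i => (vHonda h i : WB p C)).subst (map iW (G.subst
        ![D.chiW.subst (X (0 : Fin 2)), D.chiW.subst (X (1 : Fin 2))])) =
        (logK fun i => (vHonda h i : WB p C)).subst
            (map iW (D.chiW.subst (X (0 : Fin 2) : MvPowerSeries (Fin 2) (WB p C)))) +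
          (logK fun i => (vHonda h i : WB p C)).subst
            (map iW (D.chiW.subst (X (1 : Fin 2) : MvPowerSeries (Fin 2) (WB p C)))) :=
      (mkFE h fun i => (vHonda h i : WB p C)).subst_addition
        (f := logK fun i => (vHonda h i : WB p C))
        (honda p h (WB p C)).zero_constantCoeff (hasLog_map _) hc
    show coeff e ((logK fun i => (vHonda h i : WB p C)).subst (map iW _)) -
      coeff e ((logK fun i => (vHonda h i : WB p C)).subst (map iW _)) = (p : KB p C) ^ (0 + 1) * iW c
    rw [hadd, key _ D.lawW.zero_constantCoeff, key _ (constantCoeff_X _),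
      key _ (constantCoeff_X _), map_X, map_X, zero_add, pow_one]
    exact hc') d
  rwa [zero_add, pow_one] at h

/-- Reduction to `C`. -/
def redC : WB p C →+* C := (unitBall C).subtype.comp WittVector.constantCoeff

lemma redC_p : redC (p : WB p C) = (0 : C) := by rw [map_natCast, CharP.cast_eq_zero]

/-- The homomorphism over `C`. -/
def chiC : PowerSeries C := PowerSeries.map redC D.chiW

lemma redC_tT (i : ℕ) : redC (tT (p := p) D.v i) = (D.v i : C) :=
  congrArg Subtype.val (WittVector.teichmuller_coeff_zero p (D.v i))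

lemma intSer_chiC : IntSer (D.chiC : MvPowerSeries Unit C) := fun d => by
  show ‖coeff d (map redC (D.chiW : MvPowerSeries Unit (WB p C)))‖ ≤ 1
  rw [coeff_map]
  exact (WittVector.constantCoeff (coeff d (D.chiW : MvPowerSeries Unit (WB p C)))).2

lemma coeff_one_chiC : PowerSeries.coeff 1 D.chiC ≠ 0 := by
  rw [chiC, PowerSeries.coeff_map, D.coeff_one_chiW]
  exact fun h => D.ne (Subtype.ext h)

lemma isHom_chiC : IsHom (law p fun i => (D.v i : C)) (honda p h C) D.chiC := by
  refine ⟨?_, ?_⟩
  · rw [chiC, ← PowerSeries.coeff_zero_eq_constantCoeff_apply, PowerSeries.coeff_map,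
      PowerSeries.coeff_zero_eq_constantCoeff_apply, D.constantCoeff_chiW, map_zero]
  have hc : ∀ j : Fin 2, constantCoeff
      (![D.chiW.subst (X (0 : Fin 2) : MvPowerSeries (Fin 2) (WB p C)),
        D.chiW.subst (X (1 : Fin 2))] j) = 0 := fun j => by
    fin_cases j <;> exact constantCoeff_subst_zero _ D.constantCoeff_chiW (constantCoeff_X _)
  have h : map (redC : WB p C →+* C) (D.chiW.subst D.lawW.toPowerSeries) =
      map (redC : WB p C →+* C) ((honda p h (WB p C)).toPowerSeries.subst
        ![D.chiW.subst (X (0 : Fin 2)), D.chiW.subst (X (1 : Fin 2))]) := by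
    ext d
    obtain ⟨c, hc⟩ := D.hom_congr d
    rw [coeff_map, coeff_map, ← sub_eq_zero, ← map_sub, hc, map_mul, redC_p (p := p) (C := C), zero_mul]
  rw [PowerSeries.map_subst (PowerSeries.HasSubst.of_constantCoeff_zero D.lawW.zero_constantCoeff),
    ← FormalGroup.map_toPowerSeries, lawW, law_map,
    map_subst (hasSubst_of_constantCoeff_zero hc), ← FormalGroup.map_toPowerSeries] at h
  rw [show (fun i => redC (tT (p := p) D.v i)) = fun i => (D.v i : C) from
    funext fun i => D.redC_tT i] at h
  refine h.trans ?_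
  rw [fadd]
  refine congrArg₂ (fun g F => MvPowerSeries.subst g F) (funext fun j => ?_) ?_
  · fin_cases j <;>
      simp [chiC, x0, x1, PowerSeries.map_subst (PowerSeries.HasSubst.X _), map_X]
  · rw [honda, law_map, honda]
    congr 2
    funext i
    unfold vHonda
    split_ifs <;> simp

end Datum

end Vale.Agent.P217.Chi

end
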