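import Vale.Agent.P217.Chi.Congr
import Vale.Agent.P217.CharZero.Vectors

/-!
# P217, module Chi: `ChiTarget`
-/

noncomputable section

set_option linter.unusedSectionVars false

namespace Vale.Agent.P217.Chi

open Filter Topology Datum

variable {p : ℕ} [hp : Fact p.Prime] {C : Type} [NormedField C] [IsUltrametricDist C]
  [CompleteSpace C] [CharP C p] [PerfectRing C p] (S : Sharp p C)

lemma isUnit_theta_p : IsUnit (S.θ (p : WB p C)) := by
  rw [map_natCast]
  exact isUnit_iff_ne_zero.2 pC_ne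

/-- The extension of `θ` to `W(O)[1/p]`. -/
def thK : KB p C →+* ℂ_[p] := IsLocalization.Away.lift (p : WB p C) (isUnit_theta_p S)

lemma thK_iW (w : WB p C) : thK S (iW w) = S.θ w :=
  IsLocalization.Away.lift_eq (p : WB p C) (isUnit_theta_p S) w

lemma map_thK_logK (w : ℕ → WB p C) :
    PowerSeries.map (thK S) (logK w) = pLog p fun i => S.θ (w i) := by
  rw [logK, map_pLog _ isUnit_pK]
  simp only [thK_iW]

variable {n h : ℕ} (D : Datum p C n h)

/-- Specialisation of `g ∘ χ = h`, twisted by `σ ^ r`. -/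
lemma chi_identity (r : ℕ) :
    (pLog p (vHonda h : ℕ → ℂ_[p])).subst
        (PowerSeries.map (S.θ.comp (itH frW r)) D.chiW) =
      ∑ s ∈ Finset.range n, PowerSeries.C (S.θ (itH frW r (D.π s))) *
        (MvPowerSeries.expand (p ^ s) (pow_ne_zero _ hp.out.ne_zero)
          (pLog p fun i => S.θ (powTuple (tT D.v) (r + s) i) : MvPowerSeries Unit ℂ_[p]) :
            PowerSeries ℂ_[p]) := by
  have hsub : PowerSeries.HasSubst (PowerSeries.map (iW : WB p C →+* KB p C) D.chiW) :=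
    PowerSeries.HasSubst.of_constantCoeff_zero' (by
      rw [← PowerSeries.coeff_zero_eq_constantCoeff_apply, PowerSeries.coeff_map,
        PowerSeries.coeff_zero_eq_constantCoeff_apply, D.constantCoeff_chiW, map_zero])
  have hΦ := congrArg (MvPowerSeries.map ((thK S).comp (itH frK r))) D.subst_chiW
  rw [PowerSeries.map_subst hsub] at hΦ
  have h1 : PowerSeries.map ((thK S).comp (itH frK r))
      (logK fun i => (vHonda h i : WB p C)) = pLog p (vHonda h : ℕ → ℂ_[p]) := by
    rw [logK, map_pLog _ isUnit_pK]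
    congr 1
    funext i
    rw [RingHom.comp_apply, itH_frK_iW, thK_iW]
    unfold vHonda
    split_ifs <;> simp
  have h2 : MvPowerSeries.map ((thK S).comp (itH frK r))
      (MvPowerSeries.map (iW : WB p C →+* KB p C) D.chiW) =
      MvPowerSeries.map (S.θ.comp (itH frW r)) D.chiW := by
    refine MvPowerSeries.ext fun d => ?_
    rw [MvPowerSeries.coeff_map, MvPowerSeries.coeff_map, MvPowerSeries.coeff_map,
      RingHom.comp_apply, itH_frK_iW, thK_iW, RingHom.comp_apply]
  rw [h1] at hΦ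
  rw [show (PowerSeries.map (S.θ.comp (itH frW r)) D.chiW : PowerSeries ℂ_[p]) =
    MvPowerSeries.map (S.θ.comp (itH frW r)) D.chiW from rfl, ← h2]
  refine hΦ.trans ?_
  rw [hser, map_sum]
  refine Finset.sum_congr rfl fun s _ => ?_
  rw [MvPowerSeries.smul_eq_C_mul, map_mul, MvPowerSeries.map_C, RingHom.comp_apply,
    itH_frK_iW, thK_iW]
  refine congrArg₂ (· * ·) rfl ?_
  rw [fs, twist, MvPowerSeries.map_expand]
  congr 1
  have h3 : MvPowerSeries.map ((thK S).comp (itH frK r))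
      (MvPowerSeries.map (itH frK s) (logK (tT D.v) : MvPowerSeries Unit (KB p C))) =
      MvPowerSeries.map (thK S) (MvPowerSeries.map (itH frK (r + s)) (logK (tT D.v))) := by
    refine MvPowerSeries.ext fun d => ?_
    rw [MvPowerSeries.coeff_map, MvPowerSeries.coeff_map, MvPowerSeries.coeff_map,
      MvPowerSeries.coeff_map, RingHom.comp_apply, itH_itH]
  rw [h3]
  show MvPowerSeries.map (thK S) (PowerSeries.map (itH frK (r + s)) (logK (tT D.v))) = _
  rw [map_logK D.tuple]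
  exact map_thK_logK S _

lemma coeff_expand_growth {G : PowerSeries ℂ_[p]} (hG : LogGrowth G) {q : ℕ} (hq : q ≠ 0)
    {c : ℂ_[p]} (hc : ‖c‖ ≤ 1) :
    LogGrowth (PowerSeries.C c *
      (MvPowerSeries.expand q hq (G : MvPowerSeries Unit ℂ_[p]) : PowerSeries ℂ_[p])) := by
  intro m
  rw [PowerSeries.coeff_C_mul, norm_mul]
  refine (mul_le_of_le_one_left (norm_nonneg _) hc).trans ?_
  show ‖MvPowerSeries.coeff (Finsupp.single () m) (MvPowerSeries.expand q hq G)‖ ≤ _
  by_cases hd : q ∣ m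
  · obtain ⟨k, rfl⟩ := hd
    rw [show (Finsupp.single () (q * k) : Unit →₀ ℕ) = q • Finsupp.single () k by simp,
      MvPowerSeries.coeff_expand_smul]
    refine (hG k).trans ?_
    exact_mod_cast Nat.le_mul_of_pos_left k (Nat.pos_of_ne_zero hq)
  · rw [MvPowerSeries.coeff_expand_of_not_dvd _ _ _ (i := ()) (by simpa using hd), norm_zero]
    exact Nat.cast_nonneg m

lemma ev1_sum_growth (hE : EvalTarget) {z : ℂ_[p]} (hz : ‖z‖ < 1) (s : Finset ℕ)
    (F : ℕ → PowerSeries ℂ_[p]) (hF : ∀ i, LogGrowth (F i)) :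
    ev1 z (∑ i ∈ s, F i) = ∑ i ∈ s, ev1 z (F i) := by
  simp only [ev1_eq_tsum, map_sum, Finset.sum_mul]
  exact Summable.tsum_finsetSum fun i _ => (hF i).summable hE hz

/-- The value of `g` at the twisted lift of `χ`. -/
lemma logVal_chi (hE : EvalTarget) (r : ℕ) {a : ℂ_[p]} (ha : ‖a‖ < 1) :
    logVal p (vHonda h) (ev1 a (PowerSeries.map (S.θ.comp (itH frW r)) D.chiW)) =
      ∑ s ∈ Finset.range n, S.θ (itH frW r (D.π s)) *
        logVal p (fun i => S.θ (powTuple (tT D.v) (r + s) i)) (a ^ p ^ s) := by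
  have hχ : IntSer ((PowerSeries.map (S.θ.comp (itH frW r)) D.chiW : PowerSeries ℂ_[p]) :
      MvPowerSeries Unit ℂ_[p]) := fun d => by
    show ‖MvPowerSeries.coeff d (MvPowerSeries.map _ _)‖ ≤ 1
    rw [MvPowerSeries.coeff_map]
    exact S.θ_le _
  have hχ0 : PowerSeries.constantCoeff (PowerSeries.map (S.θ.comp (itH frW r)) D.chiW) = 0 := by
    rw [← PowerSeries.coeff_zero_eq_constantCoeff_apply, PowerSeries.coeff_map,
      PowerSeries.coeff_zero_eq_constantCoeff_apply, D.constantCoeff_chiW, map_zero]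
  rw [logVal_eq_ev1, ← ev1_subst_growth hE
    (logGrowth_pLog fun i => norm_vHonda_le h i) hχ hχ0 ha, chi_identity,
    ev1_sum_growth hE ha _ _ fun s => coeff_expand_growth
      (logGrowth_pLog fun i => S.θ_le _) _ (S.θ_le _)]
  exact Finset.sum_congr rfl fun s _ => by rw [ev1_C_mul, ev1_expand, logVal_eq_ev1]

lemma small_pow {u : Fin (n - 1) → C} (hu : Small u) (e : ℕ) : Small fun i => u i ^ p ^ e :=
  fun i => by rw [norm_pow]; exact pow_lt_one₀ (norm_nonneg _) (hu i) (pow_ne_zero _ hp.out.ne_zero)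

lemma small_rho {u : Fin (n - 1) → C} (hu : Small u) : Small fun i => S.ρ (u i) :=
  fun i => (S.norm_eq _).trans_lt (hu i)

/-- The parameters of the twisted lift. -/
lemma theta_powTuple {u : Fin (n - 1) → C} (hv : ∀ i, (D.v i : C) = vTuple n u i) (e i : ℕ) :
    S.θ (powTuple (tT D.v) e i) = vTuple n (fun j => S.ρ (u j ^ p ^ e)) i := by
  rw [powTuple, map_pow, theta_tT, hv, vTuple, vTuple]
  split_ifs <;> simp [zero_pow (pow_ne_zero e hp.out.ne_zero)]

/-- The periods of the comparison, modulo `1/p`. -/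
lemma per_chi_congr (hE : EvalTarget) (hTh : ThetaTarget) (hP : PeriodTarget)
    {u : Fin (n - 1) → C} (hu : Small u) (hv : ∀ i, (D.v i : C) = vTuple n u i) (r : ℕ)
    {η : C} (hη : ‖η‖ < 1) :
    ‖per p h S (tMap p n u D.chiC η) r -
      ∑ s ∈ Finset.range n, S.θ (itH frW r (D.π s)) *
        Lv p n S (vTuple n fun j => S.ρ (u j ^ p ^ (r + s))) (η ^ p ^ (r + s))‖ ≤ 1 / p := by
  have hn : 1 ≤ n := le_trans D.h1 D.hn.le
  have hpr : ∀ e : ℕ, p ^ e ≠ 0 := fun e => pow_ne_zero _ hp.out.ne_zero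
  obtain ⟨-, hx⟩ := thetaC_spec hTh hn hu hη
  set x := thetaC p n u η with hxd
  have hT : ‖tMap p n u D.chiC η‖ < 1 :=
    (ev1_small hE D.intSer_chiC D.isHom_chiC.1 hx).trans_lt hx
  set ξ := tMap p n u D.chiC η with hξd
  have hξ' : ‖ξ ^ p ^ r‖ < 1 := by rw [norm_pow]; exact pow_lt_one₀ (norm_nonneg _) hT (hpr r)
  have hx' : ‖x ^ p ^ r‖ < 1 := by rw [norm_pow]; exact pow_lt_one₀ (norm_nonneg _) hx (hpr r)
  have hρx : ‖S.ρ (x ^ p ^ r)‖ < 1 := (S.norm_eq _).trans_lt hx'
  -- left side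
  have e1 : per p h S ξ r = per p h S (ξ ^ p ^ r) 0 := by
    rw [((hP p C S h D.h1).1 ξ 0 hT).2.2.2.1 r, zero_add]
  have e2 := per_zero_congr S hP D.h1 hξ'
  -- the sharp of `ξ^(p^r)`
  have hΨ : ev1 (x ^ p ^ r) (PowerSeries.map (redC : WB p C →+* C)
      (PowerSeries.map (itH frW r) D.chiW)) = ξ ^ p ^ r := by
    have h1 := (Theta.hasSum_ev hE (Theta.small_unit hx) D.intSer_chiC).map
      (iterateFrobenius C p r) (continuous_pow _)
    have h2 := Theta.hasSum_ev hE (Theta.small_unit hx') (intSer_map_red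
      (PowerSeries.map (itH frW r) D.chiW : MvPowerSeries Unit (WB p C)))
    refine h2.unique (h1.congr_fun fun d => ?_)
    simp only [Function.comp_apply]
    show MvPowerSeries.coeff d (MvPowerSeries.map redC (MvPowerSeries.map (itH frW r) D.chiW)) * _ =
      iterateFrobenius C p r (MvPowerSeries.coeff d (MvPowerSeries.map redC D.chiW) * _)
    rw [MvPowerSeries.coeff_map, MvPowerSeries.coeff_map, MvPowerSeries.coeff_map, map_mul]
    congr 1
    · rw [show ∀ w : WB p C, redC w = ((w.coeff 0 : unitBall C) : C) from fun _ => rfl,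
        show ∀ w : WB p C, redC w = ((w.coeff 0 : unitBall C) : C) from fun _ => rfl,
        coeff_zero_frW, iterateFrobenius_def]
      rfl
    · rw [iterateFrobenius_def, mon, mon, Finsupp.prod_fintype _ _ (fun _ => pow_zero _),
        Finsupp.prod_fintype _ _ (fun _ => pow_zero _)]
      simp [← pow_mul, mul_comm]
  have e3 := map_ev1_congr S hE (PowerSeries.map (itH frW r) D.chiW) hx' hρx
    (by rw [sub_self, norm_zero]; have := hp.out.pos; positivity)
  rw [hΨ] at e3
  set y := ev1 (S.ρ (x ^ p ^ r)) (PowerSeries.map S.θ (PowerSeries.map (itH frW r) D.chiW))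
  have hy : ‖y‖ < 1 := by
    rw [show y = (y - S.ρ (ξ ^ p ^ r)) + S.ρ (ξ ^ p ^ r) by abel]
    exact (IsUltrametricDist.norm_add_le_max _ _).trans_lt
      (max_lt (e3.trans_lt one_div_p_lt_one) ((S.norm_eq _).trans_lt hξ'))
  have hzero : Small (0 : Fin (h - 1) → ℂ_[p]) := fun i => by simp
  have e4 : ‖logVal p (vHonda h) y - logVal p (vHonda h) (S.ρ (ξ ^ p ^ r))‖ ≤ 1 / p := by
    have hh : (vTuple h (0 : Fin (h - 1) → ℂ_[p])) = vHonda h := funext vTuple_zero
    have := (((hP p C S h D.h1).2.2.2 0 hzero).2.1 y _ hy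
      ((S.norm_eq _).trans_lt hξ')).2.2 e3
    rwa [hh] at this
  have e5 : y = ev1 (S.ρ (x ^ p ^ r)) (PowerSeries.map (S.θ.comp (itH frW r)) D.chiW) := by
    show ev1 _ _ = _
    congr 1
  rw [e5, logVal_chi S D hE r hρx] at e4
  -- right side
  have e6 : ∀ s, ‖logVal p (fun i => S.θ (powTuple (tT D.v) (r + s) i)) (S.ρ (x ^ p ^ r) ^ p ^ s) -
      Lv p n S (vTuple n fun j => S.ρ (u j ^ p ^ (r + s))) (η ^ p ^ (r + s))‖ ≤ 1 / p := by
    intro s
    rw [show (fun i => S.θ (powTuple (tT D.v) (r + s) i)) =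
      vTuple n (fun j => S.ρ (u j ^ p ^ (r + s))) from funext (theta_powTuple S D hv _),
      ← map_pow, ← pow_mul, ← pow_add, hxd, ← thetaC_frob hE hTh hn hu hη]
    have hu' := small_pow (p := p) hu (r + s)
    have hη' : ‖η ^ p ^ (r + s)‖ < 1 := by
      rw [norm_pow]; exact pow_lt_one₀ (norm_nonneg _) hη (hpr _)
    obtain ⟨-, hD⟩ := thetaD_spec S hTh hn hu' hη'
    obtain ⟨-, hC⟩ := thetaC_spec hTh hn hu' hη'
    obtain ⟨-, hlog, hlt⟩ := (hP p C S n hn).2.2.2 _ (small_rho S hu')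
    rw [← hlt _ hη']
    refine ((hlog _ _ ((S.norm_eq _).trans_lt hC) hD).2.2 ?_)
    rw [norm_sub_rev]
    exact theta_congr S hE hTh hn hu' hη'
  rw [e1]
  refine Theta.norm_sub_trans e2 (Theta.norm_sub_trans (by rw [norm_sub_rev]; exact e4) ?_)
  rw [← Finset.sum_sub_distrib]
  refine IsUltrametricDist.norm_sum_le_of_forall_le_of_nonneg (by positivity) fun s _ => ?_
  rw [← mul_sub, norm_mul]
  exact (mul_le_of_le_one_left (norm_nonneg _) (S.θ_le _)).trans (e6 s)

section Exact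

variable {C : Type} [NontriviallyNormedField C] [IsUltrametricDist C] [CompleteSpace C] [CharP C p]
  [PerfectRing C p] (S : Sharp p C) (D : Datum p C n h)

/-- The periods of the comparison, exactly. -/
lemma per_chi (hE : EvalTarget) (hLow : LowDegreeTarget) (hTh : ThetaTarget) (hP : PeriodTarget)
    {u : Fin (n - 1) → C} (hu : HPoint n h u) (hv : ∀ i, (D.v i : C) = vTuple n u i) (r : ℕ)
    {η : C} (hη : ‖η‖ < 1) :
    per p h S (tMap p n u D.chiC η) r =
      ∑ s ∈ Finset.range n, S.θ (itH frW r (D.π s)) *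
        Lv p n S (vTuple n fun j => S.ρ (u j ^ p ^ (r + s))) (η ^ p ^ (r + s)) := by
  have hn : 1 ≤ n := le_trans hu.one_le hu.lt.le
  set A : C → ℂ_[p] := fun η => per p h S (tMap p n u D.chiC η) r
  set B : C → ℂ_[p] := fun η => ∑ s ∈ Finset.range n, S.θ (itH frW r (D.π s)) *
        Lv p n S (vTuple n fun j => S.ρ (u j ^ p ^ (r + s))) (η ^ p ^ (r + s))
  have hχ : IsChi p n h u D.chiC := by
    refine ⟨D.intSer_chiC, ?_, D.coeff_one_chiC⟩
    have := D.isHom_chiC
    rwa [funext hv] at this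
  have hscale : ∀ {η : C}, ‖η‖ < 1 → A (η ^ p ^ n) = p * A η ∧ B (η ^ p ^ n) = p * B η := by
    intro η hη
    refine ⟨?_, ?_⟩
    · show per p h S (tMap p n u D.chiC (η ^ p ^ n)) r = _
      have hT := tMap_small hE hTh hu hχ hη
      rw [tMap_pow hE hLow hTh hu hχ hη, ((hP p C S h D.h1).1 _ r hT).2.2.2.1 h,
        ((hP p C S h D.h1).1 _ r hT).2.1]
    · show ∑ s ∈ Finset.range n, _ = (p : ℂ_[p]) * ∑ s ∈ Finset.range n, _
      rw [Finset.mul_sum]
      refine Finset.sum_congr rfl fun s _ => ?_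
      have hz : ‖η ^ p ^ (r + s)‖ < 1 := by
        rw [norm_pow]; exact pow_lt_one₀ (norm_nonneg _) hη (pow_ne_zero _ hp.out.ne_zero)
      rw [← pow_mul, mul_comm (p ^ n), pow_mul, Lv, Lv]
      simp only [Finset.mul_sum]
      refine Finset.sum_congr rfl fun t _ => ?_
      rw [((hP p C S n hn).1 _ t hz).2.2.2.1 n, ((hP p C S n hn).1 _ t hz).2.1]
      ring
  have hiter : ∀ J, ∀ {η : C}, ‖η‖ < 1 →
      A (η ^ p ^ (n * J)) - B (η ^ p ^ (n * J)) = (p : ℂ_[p]) ^ J * (A η - B η) := by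
    intro J
    induction J with
    | zero => simp
    | succ J ih =>
      intro η hη
      have hz : ‖η ^ p ^ (n * J)‖ < 1 := by
        rw [norm_pow]; exact pow_lt_one₀ (norm_nonneg _) hη (pow_ne_zero _ hp.out.ne_zero)
      rw [mul_add, mul_one, pow_add, pow_mul, (hscale hz).1, (hscale hz).2, ← mul_sub, ih hη]
      ring
  have hbound : ∀ J : ℕ, ‖A η - B η‖ ≤ ((p : ℝ)⁻¹) ^ J := by
    intro J
    have hz := Theta.norm_root_lt (p := p) hη (n * J)
    have h := hiter J hz
    rw [Theta.root_pow] at h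
    rw [h, norm_mul, norm_pow, norm_pC]
    exact mul_le_of_le_one_right (by positivity)
      ((per_chi_congr S D hE hTh hP hu.small hv r hz).trans one_div_p_lt_one.le)
  have h0 : ‖A η - B η‖ ≤ 0 := ge_of_tendsto' (tendsto_pow_atTop_nhds_zero_of_lt_one
    (by positivity) (inv_lt_one_of_one_lt₀ (by exact_mod_cast hp.out.one_lt))) hbound
  exact sub_eq_zero.1 (norm_le_zero_iff.1 h0)

end Exact

end Vale.Agent.P217.Chi

namespace Vale.Agent.P217

open Chi

/-- `ChiTarget` from the earlier targets. -/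
theorem chiTarget (hE : EvalTarget) (hLow : LowDegreeTarget) (hTh : ThetaTarget)
    (hP : PeriodTarget) : ChiTarget := by
  intro p _ C _ _ _ _ _ _ S n h u hu
  have hn : 1 ≤ n := le_trans hu.one_le hu.lt.le
  set uO : Fin (n - 1) → unitBall C := fun i => ⟨u i, (hu.small i).le⟩
  have hv : ∀ i, ((vTuple n uO i : unitBall C) : C) = vTuple n u i := fun i => by
    unfold vTuple
    split_ifs <;> rfl
  have hsupp : ∀ i, n < i → vTuple n uO i = (0 : unitBall C) := fun i hi => by
    unfold vTuple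
    rw [dif_neg (by omega), if_neg (by omega)]
  have hlow : ∀ i, 1 ≤ i → i < h → vTuple n uO i = (0 : unitBall C) := fun i h1 h2 => by
    have hlt := hu.lt
    unfold vTuple
    rw [dif_pos ⟨h1, by omega⟩]
    exact Subtype.ext (hu.low ⟨i - 1, by omega⟩ (show i - 1 + 1 < h by omega))
  have hne : vTuple n uO h ≠ (0 : unitBall C) := by
    unfold vTuple
    rw [dif_pos ⟨hu.one_le, hu.lt⟩]
    exact fun e => hu.ne (congrArg Subtype.val e)
  obtain ⟨π, h1, h2, h3⟩ := exists_fixedPoint (p := p) hu.one_le hu.lt hsupp hne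
  let D : Datum p C n h :=
    ⟨vTuple n uO, π, hu.one_le, hu.lt, hsupp, hlow, h1, h2, h3⟩
  refine ⟨D.chiC, ⟨D.intSer_chiC, ?_, D.coeff_one_chiC⟩, fun r t =>
    ∑ s ∈ Finset.range n, S.θ (itH frW r (π s)) * ∑ m ∈ Finset.range n,
      if (m + ((r : ℕ) + s)) % n = t then
        wper p n (vTuple n fun j => S.ρ (u j ^ p ^ ((r : ℕ) + s))) m *
          (p : ℂ_[p]) ^ ((m + ((r : ℕ) + s)) / n) else 0, fun η hη r => ?_⟩
  · have := D.isHom_chiC
    rwa [funext hv] at this
  rw [per_chi S D hE hLow hTh hP hu hv r hη]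
  simp only [Finset.sum_mul]
  rw [Finset.sum_comm (s := (Finset.univ : Finset (Fin n)))]
  refine Finset.sum_congr rfl fun s _ => ?_
  simp only [mul_assoc, ← Finset.mul_sum, Finset.sum_mul]
  refine congrArg₂ (· * ·) rfl ?_
  rw [Finset.sum_comm, Lv]
  refine Finset.sum_congr rfl fun m _ => ?_
  rw [Finset.sum_eq_single (⟨(m + ((r : ℕ) + s)) % n, Nat.mod_lt _ hn⟩ : Fin n)]
  · rw [if_pos rfl, ((hP p C S n hn).1 η m hη).2.2.2.1, ← Nat.cast_add, per_mod hP hn hη,
      mul_assoc]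
  · intro t _ ht
    rw [if_neg (fun e => ht (Fin.ext e.symm)), zero_mul]
  · intro hh
    exact absurd (Finset.mem_univ _) hh

end Vale.Agent.P217

end
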