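import Vale.Agent.P217.Defs
import Vale.Agent.P217.FunctionalEq
import Mathlib.Algebra.CharP.Subring

/-!
# P217, module Chi: the semilinear fixed point in `W(O)`

`O` is the unit ball of a perfect field of characteristic `p`, `v` is `vTuple n u` with entries in
`O`. A solution is `π : ℕ → W(O)` with
`φ^h (π s) = ∑_{e < h, e ≤ s} π e * [v (s + h - e)]^(p^e) + p * π (s + h)`.
-/

noncomputable section

set_option linter.unusedSectionVars false

namespace Vale.Agent.P217.Chi

open Finset

variable {p : ℕ} [hp : Fact p.Prime] {C : Type} [NormedField C] [IsUltrametricDist C] [CharP C p]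
  [PerfectRing C p]

instance expBall : ExpChar (unitBall C) p := ExpChar.prime hp.out

instance perfectBall : PerfectRing (unitBall C) p := by
  refine PerfectRing.ofSurjective _ p fun x => ?_
  have h1 : ((frobeniusEquiv C p).symm (x : C)) ^ p = x := frobeniusEquiv_symm_pow_p C p _
  refine ⟨⟨(frobeniusEquiv C p).symm (x : C), ?_⟩, Subtype.ext h1⟩
  show ‖_‖ ≤ 1
  refine (pow_le_one_iff_of_nonneg (norm_nonneg _) hp.out.ne_zero).1 ?_
  rw [← norm_pow, h1]
  exact x.2

/-- Witt vectors of the unit ball. -/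
abbrev WB (p : ℕ) [Fact p.Prime] (C : Type) [NormedField C] [IsUltrametricDist C] : Type :=
  WittVector p (unitBall C)

/-- Teichmüller lifts of the parameters. -/
def tT (v : ℕ → unitBall C) (i : ℕ) : WB p C := WittVector.teichmuller p (v i)

/-- The Frobenius of `W(O)`. -/
abbrev frW : WB p C →+* WB p C := WittVector.frobenius

lemma frW_teich (a : unitBall C) :
    frW (WittVector.teichmuller p a) = WittVector.teichmuller p a ^ p := by
  rw [frW, WittVector.frobenius_eq_map_frobenius, WittVector.map_teichmuller, frobenius_def,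
    map_pow]

lemma frW_tT (v : ℕ → unitBall C) (i : ℕ) : frW (tT (p := p) v i) = tT v i ^ p := frW_teich _

lemma coeff_zero_frW (x : WB p C) (k : ℕ) :
    (itH frW k x).coeff 0 = x.coeff 0 ^ p ^ k := by
  induction k with
  | zero => simp [itH]
  | succ k ih =>
    rw [itH, RingHom.comp_apply, frW, WittVector.coeff_frobenius_charP, ih, ← pow_mul, pow_succ]

lemma frW_frob (a : WB p C) : (p : WB p C) ∣ frW a - a ^ p := by
  rw [← Ideal.mem_span_singleton, WittVector.mem_span_p_iff_coeff_zero_eq_zero]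
  show WittVector.constantCoeff (frW a - a ^ p) = 0
  rw [map_sub, map_pow]
  show (frW a).coeff 0 - a.coeff 0 ^ p = 0
  rw [frW, WittVector.coeff_frobenius_charP, sub_self]

lemma tT_eq_zero {v : ℕ → unitBall C} {i : ℕ} (h : v i = 0) : tT (p := p) v i = 0 := by
  rw [tT, h, WittVector.teichmuller_zero]

/-- The defect of the fixed point equation. -/
def defect (v : ℕ → unitBall C) (h : ℕ) (π : ℕ → WB p C) (s : ℕ) : WB p C :=
  itH frW h (π s)
    - (∑ e ∈ range h, if e ≤ s then π e * tT v (s + h - e) ^ p ^ e else 0)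
    - (p : WB p C) * π (s + h)

lemma defect_add (v : ℕ → unitBall C) (h : ℕ) (π τ : ℕ → WB p C) (s : ℕ) :
    defect v h (π + τ) s = defect v h π s + defect v h τ s := by
  have e : (∑ e ∈ range h, if e ≤ s then (π + τ) e * tT (p := p) v (s + h - e) ^ p ^ e else 0) =
      (∑ e ∈ range h, if e ≤ s then π e * tT v (s + h - e) ^ p ^ e else 0) +
      ∑ e ∈ range h, if e ≤ s then τ e * tT v (s + h - e) ^ p ^ e else 0 := by
    rw [← sum_add_distrib]
    refine sum_congr rfl fun e _ => ?_
    split_ifs <;> simp [add_mul]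
  rw [defect, defect, defect, e]
  simp only [Pi.add_apply, map_add]
  ring

lemma defect_pMul (v : ℕ → unitBall C) (h k : ℕ) (π : ℕ → WB p C) (s : ℕ) :
    defect v h (fun t => (p : WB p C) ^ k * π t) s = (p : WB p C) ^ k * defect v h π s := by
  have e : (∑ e ∈ range h, if e ≤ s then (p : WB p C) ^ k * π e * tT (p := p) v (s + h - e) ^ p ^ e
        else 0) =
      (p : WB p C) ^ k *
        ∑ e ∈ range h, if e ≤ s then π e * tT v (s + h - e) ^ p ^ e else 0 := by
    rw [mul_sum]
    refine sum_congr rfl fun e _ => ?_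
    split_ifs <;> simp [mul_assoc]
  rw [defect, defect, e]
  simp only [map_mul, map_pow, map_natCast]
  ring

lemma defect_dvd (v : ℕ → unitBall C) (h : ℕ) {x : WB p C} {π : ℕ → WB p C}
    (hπ : ∀ t, x ∣ π t) (s : ℕ) (hx : itH frW h x = x) : x ∣ defect v h π s := by
  refine ((?_ : x ∣ itH frW h (π s)).sub (dvd_sum fun e _ => ?_)).sub ((hπ _).mul_left _)
  · obtain ⟨y, hy⟩ := hπ s
    rw [hy, map_mul, hx]
    exact dvd_mul_right _ _
  · split_ifs
    · exact (hπ e).mul_right _
    · exact dvd_zero _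

/-- The equation modulo `p`. -/
def modP (v : ℕ → unitBall C) (h : ℕ) (y : ℕ → unitBall C) (s : ℕ) : unitBall C :=
  y s ^ p ^ h - ∑ e ∈ range h, if e ≤ s then y e * v (s + h - e) ^ p ^ e else 0

lemma coeff_zero_defect_teich (v : ℕ → unitBall C) (h : ℕ) (y : ℕ → unitBall C) (s : ℕ) :
    (defect v h (fun t => WittVector.teichmuller p (y t)) s).coeff 0 =
      modP (p := p) v h y s := by
  show WittVector.constantCoeff (defect v h (fun t => WittVector.teichmuller p (y t)) s) = _
  rw [defect, map_sub, map_sub, map_sum, map_mul, map_natCast, CharP.cast_eq_zero, zero_mul,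
    sub_zero]
  refine congrArg₂ (· - ·) ?_ (sum_congr rfl fun e _ => ?_)
  · show (itH frW h _).coeff 0 = _
    rw [coeff_zero_frW, WittVector.teichmuller_coeff_zero]
  · split_ifs
    · rw [map_mul, map_pow]
      show (WittVector.teichmuller p (y e)).coeff 0 * ((tT (p := p) v (s + h - e)).coeff 0) ^ p ^ e
        = _
      rw [tT, WittVector.teichmuller_coeff_zero, WittVector.teichmuller_coeff_zero]
    · exact map_zero _

section Solve

variable [IsAlgClosed C]

lemma exists_root_ball (a b : unitBall C) {q : ℕ} (hq : 2 ≤ q) :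
    ∃ y : unitBall C, y ^ q = a * y + b := by
  classical
  set P : Polynomial C :=
    Polynomial.X ^ q - (Polynomial.C (a : C) * Polynomial.X + Polynomial.C (b : C)) with hP
  have hlin : (Polynomial.C (a : C) * Polynomial.X + Polynomial.C (b : C)).degree < (q : WithBot ℕ) :=
    lt_of_le_of_lt Polynomial.degree_linear_le (by exact_mod_cast (by omega : 1 < q))
  have hdeg : P.degree = q := by
    rw [hP, Polynomial.degree_sub_eq_left_of_degree_lt] <;> rw [Polynomial.degree_X_pow]
    exact hlin
  obtain ⟨y, hy⟩ := IsAlgClosed.exists_root P (by rw [hdeg]; exact_mod_cast (by omega : q ≠ 0))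
  simp only [hP, Polynomial.IsRoot.def, Polynomial.eval_sub, Polynomial.eval_pow,
    Polynomial.eval_X, Polynomial.eval_add, Polynomial.eval_mul, Polynomial.eval_C, sub_eq_zero]
    at hy
  have hy1 : ‖y‖ ≤ 1 := by
    by_contra hgt
    rw [not_le] at hgt
    have h1 : ‖(a : C) * y + b‖ ≤ ‖y‖ := by
      refine (IsUltrametricDist.norm_add_le_max _ _).trans (max_le ?_ (b.2.trans hgt.le))
      rw [norm_mul]
      exact mul_le_of_le_one_left (norm_nonneg _) a.2
    rw [← hy, norm_pow] at h1
    have h2 : ‖y‖ ^ 1 < ‖y‖ ^ q := pow_lt_pow_right₀ hgt (by omega)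
    rw [pow_one] at h2
    exact h1.not_gt h2
  exact ⟨⟨y, hy1⟩, Subtype.ext hy⟩

/-- Solution of the equation modulo `p`, with prescribed first entry. -/
lemma exists_modP {v : ℕ → unitBall C} {n h : ℕ} (h1 : 1 ≤ h) (hn : h < n)
    (hv : ∀ i, n < i → v i = 0) {w : ℕ → unitBall C} (hw : ∀ s, n ≤ s → w s = 0)
    (y₀ : unitBall C) (hy₀ : y₀ ^ p ^ h = v h * y₀ + w 0) :
    ∃ y : ℕ → unitBall C, y 0 = y₀ ∧ (∀ s, n ≤ s → y s = 0) ∧ ∀ s, modP (p := p) v h y s = w s := by
  have hq : 2 ≤ p ^ h := le_trans hp.out.two_le (Nat.le_self_pow (by omega) p)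
  have step : ∀ m, ∃ y : ℕ → unitBall C, y 0 = y₀ ∧ ∀ s, s < m → modP (p := p) v h y s = w s := by
    intro m
    induction m with
    | zero => exact ⟨fun _ => y₀, rfl, fun s hs => absurd hs (Nat.not_lt_zero s)⟩
    | succ m ih =>
      obtain ⟨y, hy0, hy⟩ := ih
      rcases Nat.eq_zero_or_pos m with rfl | hm
      · refine ⟨y, hy0, fun s hs => ?_⟩
        obtain rfl : s = 0 := by omega
        rw [modP, sum_eq_single_of_mem 0 (mem_range.2 (by omega)) (fun e _ he => if_neg (by omega)),
          if_pos le_rfl, hy0, zero_add, Nat.sub_zero, pow_zero, pow_one, hy₀]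
        ring
      set a : unitBall C := if m < h then v h ^ p ^ m else 0
      set b : unitBall C := w m + ∑ e ∈ range h, if e < m then y e * v (m + h - e) ^ p ^ e else 0
      obtain ⟨z, hz⟩ := exists_root_ball a b hq
      have same : ∀ e, e ≠ m → Function.update y m z e = y e := fun e he =>
        Function.update_of_ne he _ _
      refine ⟨Function.update y m z, by rw [same 0 (by omega), hy0], fun s hs => ?_⟩
      rcases Nat.lt_succ_iff_lt_or_eq.1 hs with hs' | rfl
      · rw [← hy s hs', modP, modP, same s (by omega)]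
        congr 1
        refine sum_congr rfl fun e _ => ?_
        split_ifs with he
        · rw [same e (by omega)]
        · rfl
      · have hsum : (∑ e ∈ range h, if e ≤ s then
            Function.update y s z e * v (s + h - e) ^ p ^ e else 0) =
            (if s < h then z * v h ^ p ^ s else 0) +
              ∑ e ∈ range h, if e < s then y e * v (s + h - e) ^ p ^ e else 0 := by
          have e1 : (if s < h then z * v h ^ p ^ s else 0) =
              ∑ e ∈ range h, if e = s then z * v h ^ p ^ s else 0 := by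
            rw [sum_ite_eq' (range h)]; simp only [mem_range]
          rw [e1, ← sum_add_distrib]
          refine sum_congr rfl fun e _ => ?_
          rcases lt_trichotomy e s with he | rfl | he
          · rw [if_pos he.le, if_neg he.ne, if_pos he, same e he.ne, zero_add]
          · rw [if_pos le_rfl, if_pos rfl, if_neg (lt_irrefl _), Function.update_self, add_zero,
              Nat.add_sub_cancel_left]
          · rw [if_neg (by omega), if_neg (by omega), if_neg (by omega), add_zero]
        rw [modP, hsum, Function.update_self, hz]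
        simp only [a, b]
        split_ifs <;> ring
  obtain ⟨y, hy0, hy⟩ := step n
  refine ⟨fun s => if s < n then y s else 0, by simp [show 0 < n by omega, hy0],
    fun s hs => if_neg (by omega), fun s => ?_⟩
  rcases lt_or_ge s n with hs | hs
  · rw [← hy s hs, modP, modP, if_pos hs]
    congr 1
    refine sum_congr rfl fun e he => ?_
    rw [mem_range] at he
    split_ifs <;> first | rfl | omega
  · rw [hw s hs, modP, if_neg (by omega), zero_pow (by positivity), sum_eq_zero, sub_zero]
    intro e he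
    rw [mem_range] at he
    split_ifs with h' h''
    · rw [hv _ (by omega), zero_pow (pow_ne_zero _ hp.out.ne_zero), mul_zero]
    all_goals simp

lemma defect_eq_zero_of_supp {v : ℕ → unitBall C} {n h : ℕ} (hn : h < n)
    (hv : ∀ i, n < i → v i = 0) {π : ℕ → WB p C} (hπ : ∀ s, n ≤ s → π s = 0) {s : ℕ} (hs : n ≤ s) :
    defect v h π s = 0 := by
  rw [defect, hπ s hs, hπ (s + h) (by omega), map_zero, mul_zero, sum_eq_zero, sub_zero, sub_zero]
  intro e he
  rw [mem_range] at he
  split_ifs
  · rw [tT_eq_zero (hv _ (by omega)), zero_pow (pow_ne_zero _ hp.out.ne_zero), mul_zero]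
  · rfl

/-- One correction. -/
lemma exists_step {v : ℕ → unitBall C} {n h : ℕ} (h1 : 1 ≤ h) (hn : h < n)
    (hv : ∀ i, n < i → v i = 0) {π : ℕ → WB p C} (hπ : ∀ s, n ≤ s → π s = 0) {N : ℕ}
    (hd : ∀ s, (p : WB p C) ^ N ∣ defect v h π s) :
    ∃ π' : ℕ → WB p C, (∀ s, n ≤ s → π' s = 0) ∧ (∀ s, (p : WB p C) ^ (N + 1) ∣ defect v h π' s) ∧
      ∀ s, (p : WB p C) ^ N ∣ π' s - π s := by
  classical
  choose R hR using hd
  set w : ℕ → unitBall C := fun s => if s < n then -(R s).coeff 0 else 0
  have hq : 2 ≤ p ^ h := le_trans hp.out.two_le (Nat.le_self_pow (by omega) p)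
  obtain ⟨y₀, hy₀⟩ := exists_root_ball (v h) (w 0) hq
  obtain ⟨y, -, hys, hy⟩ := exists_modP (p := p) (w := w) h1 hn hv (fun s hs => if_neg (Nat.not_lt.2 hs)) y₀ hy₀
  set τ : ℕ → WB p C := fun t => WittVector.teichmuller p (y t)
  refine ⟨π + fun t => (p : WB p C) ^ N * τ t, fun s hs => ?_, fun s => ?_,
    fun s => ⟨τ s, by simp⟩⟩
  · simp only [Pi.add_apply, τ, hπ s hs, hys s hs, WittVector.teichmuller_zero, mul_zero,
      add_zero]
  · rcases lt_or_ge s n with hs | hs
    · rw [defect_add, defect_pMul, hR, ← mul_add, pow_succ]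
      refine mul_dvd_mul_left _ ?_
      rw [← Ideal.mem_span_singleton, WittVector.mem_span_p_iff_coeff_zero_eq_zero]
      show WittVector.constantCoeff (R s + defect v h τ s) = 0
      rw [map_add]
      show (R s).coeff 0 + (defect v h τ s).coeff 0 = 0
      rw [coeff_zero_defect_teich, hy]
      simp [w, hs]
    · rw [defect_eq_zero_of_supp hn hv ?_ hs]
      · exact dvd_zero _
      · intro t ht
        simp only [Pi.add_apply, τ, hπ t ht, hys t ht, WittVector.teichmuller_zero, mul_zero,
          add_zero]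

/-- The fixed point. -/
theorem exists_fixedPoint {v : ℕ → unitBall C} {n h : ℕ} (h1 : 1 ≤ h) (hn : h < n)
    (hv : ∀ i, n < i → v i = 0) (hne : v h ≠ 0) :
    ∃ π : ℕ → WB p C, (∀ s, n ≤ s → π s = 0) ∧ (π 0).coeff 0 ≠ 0 ∧
      ∀ s, itH frW h (π s) =
        (∑ e ∈ range h, if e ≤ s then π e * tT v (s + h - e) ^ p ^ e else 0) +
          (p : WB p C) * π (s + h) := by
  classical
  have hq : 2 ≤ p ^ h := le_trans hp.out.two_le (Nat.le_self_pow (by omega) p)
  obtain ⟨y, hy⟩ := IsAlgClosed.exists_pow_nat_eq ((v h : unitBall C) : C) (n := p ^ h - 1)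
    (by omega)
  have hy1 : ‖y‖ ≤ 1 := by
    refine (pow_le_one_iff_of_nonneg (norm_nonneg _) (by omega : p ^ h - 1 ≠ 0)).1 ?_
    rw [← norm_pow, hy]
    exact (v h).2
  have hy0 : (⟨y, hy1⟩ : unitBall C) ≠ 0 := fun e => hne <| Subtype.ext <| by
    rw [← hy, show y = 0 from congrArg Subtype.val e, zero_pow (by omega : p ^ h - 1 ≠ 0)]
    rfl
  obtain ⟨y', hy'0, hys, hy'⟩ := exists_modP (p := p) (w := fun _ => 0) h1 hn hv (fun _ _ => rfl)
    ⟨y, hy1⟩ (Subtype.ext (by
      show y ^ p ^ h = (v h : C) * y + 0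
      rw [add_zero, ← hy, ← pow_succ, Nat.sub_add_cancel (by omega)]))
  let P : ℕ → (ℕ → WB p C) → Prop := fun N π => (∀ s, n ≤ s → π s = 0) ∧
    ∀ s, (p : WB p C) ^ N ∣ defect v h π s
  have hbase : P 1 fun t => WittVector.teichmuller p (y' t) :=
    ⟨fun s hs => by simp [hys s hs], fun s => by
      rw [pow_one, ← Ideal.mem_span_singleton, WittVector.mem_span_p_iff_coeff_zero_eq_zero,
        coeff_zero_defect_teich, hy']⟩
  have hnext : ∀ N π, P (N + 1) π → ∃ π', P (N + 2) π' ∧ ∀ s, (p : WB p C) ^ (N + 1) ∣ π' s - π s :=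
    fun N π hπ => by
      obtain ⟨π', h2, h3, h4⟩ := exists_step h1 hn hv hπ.1 hπ.2
      exact ⟨π', ⟨h2, h3⟩, h4⟩
  choose f hf hfd using hnext
  obtain ⟨seq, hs0, hsP, hsd⟩ : ∃ seq : ℕ → ℕ → WB p C,
      seq 0 0 = WittVector.teichmuller p (y' 0) ∧ (∀ N, P (N + 1) (seq N)) ∧
        ∀ N s, (p : WB p C) ^ (N + 1) ∣ seq (N + 1) s - seq N s :=
    let g : ∀ N, {π // P (N + 1) π} := fun N =>
      Nat.rec ⟨_, hbase⟩ (fun N x => ⟨f N x.1 x.2, hf N x.1 x.2⟩) N
    ⟨fun N => (g N).1, rfl, fun N => (g N).2, fun N s => hfd N (g N).1 (g N).2 s⟩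
  have hcauchy : ∀ s N M, N ≤ M → (p : WB p C) ^ (N + 1) ∣ seq M s - seq N s := by
    intro s N M hNM
    induction M, hNM using Nat.le_induction with
    | base => simp
    | succ M hNM ih =>
      have h6 : (p : WB p C) ^ (N + 1) ∣ seq (M + 1) s - seq M s :=
        (pow_dvd_pow _ (by omega)).trans (hsd M s)
      simpa using h6.add ih
  have hI : ∀ k, (Ideal.span {(p : WB p C)} ^ k • ⊤ : Submodule (WB p C) (WB p C)) =
      Ideal.span {(p : WB p C) ^ k} := fun k => by
    rw [smul_eq_mul, Ideal.mul_top, Ideal.span_singleton_pow]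
  have hlim : ∀ s, ∃ L : WB p C, ∀ N, (p : WB p C) ^ N ∣ seq N s - L := by
    intro s
    obtain ⟨L, hL⟩ := IsPrecomplete.prec (I := Ideal.span {(p : WB p C)}) inferInstance
      (f := fun N => seq N s) (fun {m k} hmk => by
        rw [SModEq.sub_mem, hI, Ideal.mem_span_singleton]
        exact (dvd_sub_comm.1 ((pow_dvd_pow _ (Nat.le_succ m)).trans (hcauchy s m k hmk))))
    refine ⟨L, fun N => ?_⟩
    have h5 := hL N
    rwa [SModEq.sub_mem, hI, Ideal.mem_span_singleton] at h5
  choose L hL using hlim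
  have hzero : ∀ x : WB p C, (∀ N, (p : WB p C) ^ N ∣ x) → x = 0 := fun x hx =>
    IsHausdorff.haus (I := Ideal.span {(p : WB p C)}) inferInstance x fun N => by
      rw [SModEq.zero, hI, Ideal.mem_span_singleton]
      exact hx N
  refine ⟨L, fun s hs => hzero _ fun N => ?_, ?_, fun s => ?_⟩
  · have h5 := hL s N
    rw [(hsP N).1 s hs, zero_sub] at h5
    exact dvd_neg.1 h5
  · have h5 := ((hL 0 1).neg_right)
    have h6 := hcauchy 0 0 1 (Nat.zero_le _)
    rw [pow_one] at h5
    rw [zero_add, pow_one] at h6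
    have h7 := h5.add h6
    rw [show -(seq 1 0 - L 0) + (seq 1 0 - seq 0 0) = L 0 - seq 0 0 by ring,
      ← Ideal.mem_span_singleton, WittVector.mem_span_p_iff_coeff_zero_eq_zero] at h7
    have h8 := map_sub WittVector.constantCoeff (L 0) (seq 0 0)
    simp only [WittVector.constantCoeff, RingHom.coe_mk, MonoidHom.coe_mk, OneHom.coe_mk] at h8
    rw [h7] at h8
    rw [sub_eq_zero.1 h8.symm]
    rw [hs0, WittVector.teichmuller_coeff_zero, hy'0]
    exact hy0
  · have hd : defect v h L s = 0 := hzero _ fun N => by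
      have h5 : ∀ t, (p : WB p C) ^ N ∣ L t - seq N t := fun t => dvd_sub_comm.1 (hL t N)
      have h6 := defect_dvd v h h5 s (by rw [map_pow, map_natCast])
      have h7 : defect v h L s = defect v h (seq N) s + defect v h (fun t => L t - seq N t) s := by
        rw [← defect_add]
        congr 1
        funext t
        simp
      rw [h7]
      exact ((pow_dvd_pow _ (Nat.le_succ N)).trans ((hsP N).2 s)).add h6
    rw [defect, sub_sub, sub_eq_zero] at hd
    exact hd

end Solve

end Vale.Agent.P217.Chi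

end
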